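/-
Row 210 (S0432), layer GCA, file JvN: the Jordan - von Neumann theorem for a functional `q` on a submodule `S` of a real vector space.     Architect: helper375.       PURE ALGEBRA + one continuity argument; no measure theory.
`gca_B q u v = (q (u+v) - q (u-v))/4`.     Hypotheses: parallelogram law on `S`, continuity of `t ↦ q (u + t • v)`.
PROOF.  (0) `u = v = 0`: `q 0 = 0`;  `u = 0`: `q (-v) = q v`;  hence `q (u - v) = q (v - u)` and `B u v = B v u`,  `B 0 w = 0`,  `u = v`: `q (2 • u) = 4 q u`, `B u u = q u`.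
(1) the parallelogram law for `(u + w, v)` and `(u - w, v)`, subtracted:   `B (u+v) w + B (u-v) w = 2 B u w`.     (2) `v = u`:  `B (2 • u) w = 2 B u w`.
(3) (1) with `u' = (1/2) • (a + b)`, `v' = (1/2) • (a - b)`:   `B a w + B b w = 2 B ((1/2) • (a+b)) w = B (a + b) w`  by (2).
(4) `t ↦ B (t • u) w` is additive by (3) (`add_smul`) and continuous (`q (t • u + w) = q (w + t • u)`, `q (t • u - w) = q (w - t • u) = q (w + t • (-u))`);  a continuous additive map `ℝ → ℝ` is linear: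
    `AddMonoidHom.mk'`, `map_real_smul` (Mathlib.Topology.Algebra.Module.Basic / `AddMonoidHom.toRealLinearMap`), applied to `t • (1 : ℝ)`.
-/
import Mathlib

set_option autoImplicit false

namespace Claimed.Agent.R210.GCA.JvN

variable {V : Type*} [AddCommGroup V] [Module ℝ V]

/-- polarisation -/
noncomputable def gca_B (q : V → ℝ) (u v : V) : ℝ := (q (u + v) - q (u - v)) / 4

variable {S : Submodule ℝ V} {q : V → ℝ}

theorem gca_jvn_zero (hpar : ∀ u ∈ S, ∀ v ∈ S, q (u + v) + q (u - v) = 2 * q u + 2 * q v) : q 0 = 0 := by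
  have h := hpar 0 S.zero_mem 0 S.zero_mem
  simp only [add_zero, sub_zero] at h
  linarith

theorem gca_jvn_neg (hpar : ∀ u ∈ S, ∀ v ∈ S, q (u + v) + q (u - v) = 2 * q u + 2 * q v) {v : V} (hv : v ∈ S) :
    q (-v) = q v := by
  have h := hpar 0 S.zero_mem v hv
  have h0 := gca_jvn_zero hpar
  simp only [zero_add, zero_sub] at h
  linarith

theorem gca_jvn_comm (hpar : ∀ u ∈ S, ∀ v ∈ S, q (u + v) + q (u - v) = 2 * q u + 2 * q v) {u v : V} (hu : u ∈ S)
    (hv : v ∈ S) : gca_B q u v = gca_B q v u := by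
  have h := gca_jvn_neg hpar (S.sub_mem hu hv)
  rw [neg_sub] at h
  unfold gca_B
  rw [add_comm v u, h]

theorem gca_jvn_self (hpar : ∀ u ∈ S, ∀ v ∈ S, q (u + v) + q (u - v) = 2 * q u + 2 * q v) {u : V} (hu : u ∈ S) :
    gca_B q u u = q u := by
  have h := hpar u hu u hu
  have h0 := gca_jvn_zero hpar
  unfold gca_B
  rw [sub_self] at h ⊢
  linarith

theorem gca_jvn_aux1 (hpar : ∀ u ∈ S, ∀ v ∈ S, q (u + v) + q (u - v) = 2 * q u + 2 * q v) {u v w : V} (hu : u ∈ S)
    (hv : v ∈ S) (hw : w ∈ S) : gca_B q (u + v) w + gca_B q (u - v) w = 2 * gca_B q u w := by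
  have h1 := hpar (u + w) (S.add_mem hu hw) v hv
  have h2 := hpar (u - w) (S.sub_mem hu hw) v hv
  unfold gca_B
  have e1 : u + v + w = u + w + v := by abel
  have e2 : u - v + w = u + w - v := by abel
  have e3 : u + v - w = u - w + v := by abel
  have e4 : u - v - w = u - w - v := by abel
  rw [e1, e2, e3, e4]
  linarith

theorem gca_jvn_zero_left (hpar : ∀ u ∈ S, ∀ v ∈ S, q (u + v) + q (u - v) = 2 * q u + 2 * q v) {w : V} (hw : w ∈ S) :
    gca_B q 0 w = 0 := by
  unfold gca_B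
  rw [zero_add, zero_sub, gca_jvn_neg hpar hw]
  simp

theorem gca_jvn_aux2 (hpar : ∀ u ∈ S, ∀ v ∈ S, q (u + v) + q (u - v) = 2 * q u + 2 * q v) {u w : V} (hu : u ∈ S)
    (hw : w ∈ S) : gca_B q (u + u) w = 2 * gca_B q u w := by
  have h := gca_jvn_aux1 hpar hu hu hw
  rw [sub_self, gca_jvn_zero_left hpar hw] at h
  linarith

theorem gca_jvn_add (hpar : ∀ u ∈ S, ∀ v ∈ S, q (u + v) + q (u - v) = 2 * q u + 2 * q v) {u v w : V} (hu : u ∈ S)
    (hv : v ∈ S) (hw : w ∈ S) : gca_B q (u + v) w = gca_B q u w + gca_B q v w := by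
  have ha : (1 / 2 : ℝ) • (u + v) ∈ S := S.smul_mem _ (S.add_mem hu hv)
  have hb : (1 / 2 : ℝ) • (u - v) ∈ S := S.smul_mem _ (S.sub_mem hu hv)
  have h := gca_jvn_aux1 hpar ha hb hw
  have h2 := gca_jvn_aux2 hpar ha hw
  have e1 : (1 / 2 : ℝ) • (u + v) + (1 / 2 : ℝ) • (u - v) = u := by
    rw [← smul_add]
    have : u + v + (u - v) = (2 : ℝ) • u := by rw [two_smul]; abel
    rw [this, smul_smul]
    norm_num
  have e2 : (1 / 2 : ℝ) • (u + v) - (1 / 2 : ℝ) • (u - v) = v := by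
    rw [← smul_sub]
    have : u + v - (u - v) = (2 : ℝ) • v := by rw [two_smul]; abel
    rw [this, smul_smul]
    norm_num
  have e3 : (1 / 2 : ℝ) • (u + v) + (1 / 2 : ℝ) • (u + v) = u + v := by
    rw [← add_smul]
    norm_num
  rw [e1, e2] at h
  rw [e3] at h2
  linarith

theorem gca_jvn_smul (hpar : ∀ u ∈ S, ∀ v ∈ S, q (u + v) + q (u - v) = 2 * q u + 2 * q v)
    (hcont : ∀ u ∈ S, ∀ v ∈ S, Continuous fun t : ℝ => q (u + t • v)) (t : ℝ) {u w : V} (hu : u ∈ S) (hw : w ∈ S) :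
    gca_B q (t • u) w = t * gca_B q u w := by
  have hadd : ∀ a b : ℝ, gca_B q ((a + b) • u) w = gca_B q (a • u) w + gca_B q (b • u) w := by
    intro a b
    rw [add_smul]
    exact gca_jvn_add hpar (S.smul_mem _ hu) (S.smul_mem _ hu) hw
  have hc : Continuous fun a : ℝ => gca_B q (a • u) w := by
    have c1 := hcont w hw u hu
    have c2 := hcont w hw (-u) (S.neg_mem hu)
    have e : (fun a : ℝ => gca_B q (a • u) w) = fun a : ℝ => (q (w + a • u) - q (w + a • (-u))) / 4 := by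
      funext a
      unfold gca_B
      have h := gca_jvn_neg hpar (S.sub_mem (S.smul_mem a hu) hw)
      rw [neg_sub] at h
      rw [add_comm (a • u) w, ← h, smul_neg, sub_eq_add_neg w]
    rw [e]
    exact (c1.sub c2).div_const 4
  let f : ℝ →+ ℝ := AddMonoidHom.mk' (fun a : ℝ => gca_B q (a • u) w) hadd
  have hf : Continuous f := hc
  have h := map_real_smul f hf t (1 : ℝ)
  have h1 : f (t • (1 : ℝ)) = gca_B q (t • u) w := by
    show gca_B q ((t • (1 : ℝ)) • u) w = _
    simp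
  have h2 : f 1 = gca_B q u w := by
    show gca_B q ((1 : ℝ) • u) w = _
    simp
  rw [h1, h2] at h
  simpa using h

theorem gca_jvn_hygiene : True := by
  have := @gca_B.eq_1.{0}
  trivial

end Claimed.Agent.R210.GCA.JvN
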