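/-
Row 210 (S0432), layer GCA (pointwise parallelogram identity for the frozen weak gradient).   Architect: helper375.
Blueprint of the layer: `git fetch -q origin helper375; git show origin/helper375:docs/R210_GCA.md`.

DEFINITIONS.   `|Df| = weakGradient m f`,  `energy m f = ∫ |Df|²`.
* `gca_Calc m` : the first order calculus rules of the frozen weak gradient (exports of the layers TP and ID) which the layer uses.
   EVERYTHING in the layer is proved from one hypothesis `hc : gca_Calc m`; only `GCA/Need.lean` talks to the other layers.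
* `gca_Wt φ`   : test weights = bounded Lipschitz functions which vanish outside a ball.
* `gca_E m f g = (energy (f+g) - energy (f-g))/4`  (the Dirichlet form),   `gca_I m φ f = ∫ φ |Df|²`,   `gca_R m φ f = ∫ |Df| |Dφ|`,
  `gca_Dft m φ f = E(f, fφ) - E(f², φ)/2 - ∫ φ |Df|²`   (the DEFECT; the heart of the layer is `gca_Dft m φ f = 0` for bounded Sobolev `f`).
Functions are combined with the pointwise operations of `X → ℝ` (`f + g`, `f - g`, `-f`, `c • f`, `f * g`); `f + g` is definitionally `fun x => f x + g x`.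
-/
import Claimed.Agent.R210.Defs

set_option autoImplicit false

open Claims.C0366 Claims.C0366.WeakHessian
open Set Filter MeasureTheory
open scoped ENNReal NNReal Topology

namespace Claimed.Agent.R210.GCA.Defs

open Claimed.Agent.R210.Defs

noncomputable section

variable {X : Type*} [MetricSpace X] [MeasurableSpace X] [BorelSpace X]

/-- The calculus rules used by the layer GCA. -/
structure gca_Calc (m : Measure X) : Prop where
  finite : FiniteOnBoundedSets m
  add : ∀ f g : X → ℝ, LocalSobolev m f → LocalSobolev m g →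
    LocalSobolev m (fun x => f x + g x) ∧
      ∀ᵐ x ∂m, weakGradient m (fun x => f x + g x) x ≤ weakGradient m f x + weakGradient m g x
  smul : ∀ (c : ℝ) (f : X → ℝ), LocalSobolev m f →
    LocalSobolev m (fun x => c * f x) ∧
      ∀ᵐ x ∂m, weakGradient m (fun x => c * f x) x = |c| * weakGradient m f x
  loc : ∀ f g : X → ℝ, LocalSobolev m f → LocalSobolev m g →
    ∀ᵐ x ∂m, f x = g x → weakGradient m f x = weakGradient m g x
  lip : ∀ (L : ℝ≥0) (φ : X → ℝ), LipschitzWith L φ →
    LocalSobolev m φ ∧ ∀ᵐ x ∂m, weakGradient m φ x ≤ L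
  comp : ∀ (L : ℝ≥0) (ψ : ℝ → ℝ) (f : X → ℝ), LipschitzWith L ψ → LocalSobolev m f →
    LocalSobolev m (fun x => ψ (f x)) ∧
      ∀ᵐ x ∂m, weakGradient m (fun x => ψ (f x)) x ≤ L * weakGradient m f x
  mul : ∀ f g : X → ℝ, LocalSobolev m f → LocalSobolev m g → BoundedFunction f → BoundedFunction g →
    LocalSobolev m (fun x => f x * g x) ∧
      ∀ᵐ x ∂m, weakGradient m (fun x => f x * g x) x
        ≤ |f x| * weakGradient m g x + |g x| * weakGradient m f x
  par : ∀ f g : X → ℝ, Sobolev m f → Sobolev m g →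
    energy m (fun x => f x + g x) + energy m (fun x => f x - g x) = 2 * energy m f + 2 * energy m g

/-- Test weights: bounded Lipschitz functions which vanish outside a ball. -/
structure gca_Wt (φ : X → ℝ) : Prop where
  lip : GloballyLipschitz φ
  bdd : BoundedFunction φ
  supp : ∃ (o : X) (R : ℝ), ∀ x, R < dist x o → φ x = 0

/-- The Dirichlet form `E(f,g) = ∫ Γ(f,g)`, by polarisation of the energy. -/
def gca_E (m : Measure X) (f g : X → ℝ) : ℝ := (energy m (f + g) - energy m (f - g)) / 4

/-- `∫ φ |Df|²`. -/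
def gca_I (m : Measure X) (φ f : X → ℝ) : ℝ := ∫ x, φ x * weakGradient m f x ^ 2 ∂m

/-- `∫ |Df| |Dφ|`. -/
def gca_R (m : Measure X) (φ f : X → ℝ) : ℝ := ∫ x, weakGradient m f x * weakGradient m φ x ∂m

/-- The defect `E(f, fφ) - E(f², φ)/2 - ∫ φ |Df|²`. -/
def gca_Dft (m : Measure X) (φ f : X → ℝ) : ℝ :=
  gca_E m f (f * φ) - gca_E m (f * f) φ / 2 - gca_I m φ f

/-- The pointwise parallelogram defect. -/
def gca_P (m : Measure X) (f g : X → ℝ) (x : X) : ℝ :=
  weakGradient m (f + g) x ^ 2 + weakGradient m (f - g) x ^ 2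
    - 2 * weakGradient m f x ^ 2 - 2 * weakGradient m g x ^ 2

/-- cut-off `= 1` on `closedBall o n`, `= 0` outside `ball o (n+1)`. -/
def gca_chi (o : X) (n : ℕ) (x : X) : ℝ := max 0 (min 1 ((n : ℝ) + 1 - dist x o))

/-- truncation at the levels `± n`. -/
def gca_clamp (n : ℕ) (z : ℝ) : ℝ := max (-(n : ℝ)) (min z n)

/-- truncation and cut-off of `f`. -/
def gca_trunc (o : X) (n : ℕ) (f : X → ℝ) : X → ℝ := fun x => gca_chi o n x * gca_clamp n (f x)

end

/-- hygiene: the equation lemmas of the definitions of this file are generated here, once. -/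
theorem gca_defs_hygiene : True := by
  have := @gca_E.eq_1.{0}
  have := @gca_I.eq_1.{0}
  have := @gca_R.eq_1.{0}
  have := @gca_Dft.eq_1.{0}
  have := @gca_P.eq_1.{0}
  have := @gca_chi.eq_1.{0}
  have := @gca_clamp.eq_1
  have := @gca_trunc.eq_1.{0}
  trivial

end Claimed.Agent.R210.GCA.Defs
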