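/-
Row 210 (S0432), layer GCA, file Basic: elementary consequences of the frozen definitions and of `gca_Calc m`, pointwise (a.e.) level.     Architect: helper375.
`|Df| = weakGradient m f`.   All rules in the form with the pointwise operations `f + g`, `f - g`, `-f`, `c • f`, `f * g` of `X → ℝ`
(`f + g` is definitionally `fun x => f x + g x`, `c • f` is definitionally `fun x => c * f x`: the fields of `gca_Calc` apply by `exact`/`show`).
-/
import Claimed.Agent.R210.GCA.Defs

set_option autoImplicit false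
set_option linter.unusedSectionVars false

open Claims.C0366 Claims.C0366.WeakHessian
open Set Filter MeasureTheory
open scoped ENNReal NNReal Topology

namespace Claimed.Agent.R210.GCA.Basic

open Claimed.Agent.R210.Defs Claimed.Agent.R210.GCA.Defs

variable {X : Type*} [MetricSpace X] [MeasurableSpace X] [BorelSpace X] {m : Measure X} {f g : X → ℝ}

/-! ### the frozen definitions -/

/-- `weakGradient` unfolds to `Classical.choose` (`dif_pos hf.2`, `Classical.choose_spec`). -/
theorem gca_wg_spec (hf : LocalSobolev m f) : IsMinimalLocalWeakUpperGradient m f (weakGradient m f) := by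
  unfold weakGradient
  rw [dif_pos hf.2]
  exact Classical.choose_spec hf.2

theorem gca_wg_nonneg (hf : LocalSobolev m f) : ∀ᵐ x ∂m, 0 ≤ weakGradient m f x :=
  (gca_wg_spec hf).1.2.1

theorem gca_wg_locL2 (hf : LocalSobolev m f) : LocallyL2 m (weakGradient m f) :=
  (gca_wg_spec hf).1.1

/-- `X = ⋃ n, ball o n` (`X` empty: trivial);  `aestronglyMeasurable_iUnion_iff`, `Measure.restrict_univ`. -/
theorem gca_aesm_of_locL2 {D : X → ℝ} (h : LocallyL2 m D) : AEStronglyMeasurable D m := by
  rcases isEmpty_or_nonempty X with hX | ⟨⟨o⟩⟩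
  · exact (measurable_of_empty D).aestronglyMeasurable
  · have hU : (⋃ n : ℕ, Metric.ball o ((n : ℝ) + 1)) = univ := by
      refine eq_univ_of_forall fun x => mem_iUnion.2 ?_
      obtain ⟨n, hn⟩ := exists_nat_gt (dist x o)
      exact ⟨n, Metric.mem_ball.2 (by linarith)⟩
    rw [← Measure.restrict_univ (μ := m), ← hU, aestronglyMeasurable_iUnion_iff]
    exact fun n => (h o ((n : ℝ) + 1) (by positivity)).aestronglyMeasurable

theorem gca_wg_aesm (hf : LocalSobolev m f) : AEStronglyMeasurable (weakGradient m f) m :=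
  gca_aesm_of_locL2 (gca_wg_locL2 hf)

theorem gca_ls_aesm (hf : LocalSobolev m f) : AEStronglyMeasurable f m :=
  gca_aesm_of_locL2 hf.1

/-! ### the rules of `gca_Calc` for the pointwise operations -/

theorem gca_ls_add (hc : gca_Calc m) (hf : LocalSobolev m f) (hg : LocalSobolev m g) : LocalSobolev m (f + g) :=
  (hc.add f g hf hg).1

theorem gca_wg_add_le (hc : gca_Calc m) (hf : LocalSobolev m f) (hg : LocalSobolev m g) :
    ∀ᵐ x ∂m, weakGradient m (f + g) x ≤ weakGradient m f x + weakGradient m g x :=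
  (hc.add f g hf hg).2

theorem gca_ls_smul (hc : gca_Calc m) (c : ℝ) (hf : LocalSobolev m f) : LocalSobolev m (c • f) :=
  (hc.smul c f hf).1

theorem gca_wg_smul (hc : gca_Calc m) (c : ℝ) (hf : LocalSobolev m f) :
    ∀ᵐ x ∂m, weakGradient m (c • f) x = |c| * weakGradient m f x :=
  (hc.smul c f hf).2

/-- `-f = (-1) • f`. -/
theorem gca_neg_eq (f : X → ℝ) : -f = (-1 : ℝ) • f := by
  funext x
  simp

theorem gca_ls_neg (hc : gca_Calc m) (hf : LocalSobolev m f) : LocalSobolev m (-f) := by
  rw [gca_neg_eq]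
  exact gca_ls_smul hc (-1) hf

theorem gca_wg_neg (hc : gca_Calc m) (hf : LocalSobolev m f) :
    ∀ᵐ x ∂m, weakGradient m (-f) x = weakGradient m f x := by
  rw [gca_neg_eq]
  filter_upwards [gca_wg_smul hc (-1) hf] with x hx
  rw [hx, abs_neg, abs_one, one_mul]

/-- `f - g = f + (-g)`. -/
theorem gca_ls_sub (hc : gca_Calc m) (hf : LocalSobolev m f) (hg : LocalSobolev m g) : LocalSobolev m (f - g) := by
  rw [sub_eq_add_neg]
  exact gca_ls_add hc hf (gca_ls_neg hc hg)

theorem gca_wg_sub_le (hc : gca_Calc m) (hf : LocalSobolev m f) (hg : LocalSobolev m g) :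
    ∀ᵐ x ∂m, weakGradient m (f - g) x ≤ weakGradient m f x + weakGradient m g x := by
  rw [sub_eq_add_neg]
  filter_upwards [gca_wg_add_le hc hf (gca_ls_neg hc hg), gca_wg_neg hc hg] with x h1 h2
  rw [← h2]
  exact h1

theorem gca_ls_mul (hc : gca_Calc m) (hf : LocalSobolev m f) (hg : LocalSobolev m g) (hfb : BoundedFunction f)
    (hgb : BoundedFunction g) : LocalSobolev m (f * g) :=
  (hc.mul f g hf hg hfb hgb).1

theorem gca_wg_mul_le (hc : gca_Calc m) (hf : LocalSobolev m f) (hg : LocalSobolev m g) (hfb : BoundedFunction f)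
    (hgb : BoundedFunction g) :
    ∀ᵐ x ∂m, weakGradient m (f * g) x ≤ |f x| * weakGradient m g x + |g x| * weakGradient m f x :=
  (hc.mul f g hf hg hfb hgb).2

/-- constants are `0`-Lipschitz (`LipschitzWith.const`), `hc.lip 0`. -/
theorem gca_ls_const (hc : gca_Calc m) (c : ℝ) : LocalSobolev m (fun _ : X => c) :=
  (hc.lip 0 (fun _ : X => c) (LipschitzWith.const c)).1

/-- `hc.lip 0` and `gca_wg_nonneg`. -/
theorem gca_wg_const (hc : gca_Calc m) (c : ℝ) : ∀ᵐ x ∂m, weakGradient m (fun _ : X => c) x = 0 := by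
  filter_upwards [(hc.lip 0 (fun _ : X => c) (LipschitzWith.const c)).2, gca_wg_nonneg (gca_ls_const hc c)]
    with x h1 h2
  exact le_antisymm (by simpa using h1) h2

/-- locality with a constant:  `|Df| = 0` a.e. on `{f = c}`   (`hc.loc f (fun _ => c)`, `gca_wg_const`). -/
theorem gca_wg_eq_zero_of_eq (hc : gca_Calc m) (hf : LocalSobolev m f) (c : ℝ) :
    ∀ᵐ x ∂m, f x = c → weakGradient m f x = 0 := by
  filter_upwards [hc.loc f (fun _ => c) hf (gca_ls_const hc c), gca_wg_const hc c] with x h1 h2 hx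
  rw [h1 hx, h2]

theorem gca_ls_add_const (hc : gca_Calc m) (hf : LocalSobolev m f) (c : ℝ) : LocalSobolev m (fun x => f x + c) :=
  (hc.add f (fun _ => c) hf (gca_ls_const hc c)).1

/-- `|D(f+c)| ≤ |Df| + 0` and `|Df| = |D((f+c) + (-c))| ≤ |D(f+c)| + 0`  (rewrite `f = fun x => (f x + c) + (-c)` by `funext`, `ring`/`simp`). -/
theorem gca_wg_add_const (hc : gca_Calc m) (hf : LocalSobolev m f) (c : ℝ) :
    ∀ᵐ x ∂m, weakGradient m (fun x => f x + c) x = weakGradient m f x := by
  have h1 := (hc.add f (fun _ => c) hf (gca_ls_const hc c)).2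
  have h2 := (hc.add (fun x => f x + c) (fun _ => -c) (gca_ls_add_const hc hf c) (gca_ls_const hc (-c))).2
  have e : (fun x => f x + c + -c) = f := by
    funext x
    ring
  rw [e] at h2
  filter_upwards [h1, h2, gca_wg_const hc c, gca_wg_const hc (-c)] with x a1 a2 a3 a4
  rw [a3] at a1
  rw [a4] at a2
  linarith

/-- `f = g + (f - g)`, `g = f - (f - g)`: `|Df| ≤ |Dg| + |D(f-g)|`, `|Dg| ≤ |Df| + |D(f-g)|`. -/
theorem gca_wg_abs_sub_le (hc : gca_Calc m) (hf : LocalSobolev m f) (hg : LocalSobolev m g) :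
    ∀ᵐ x ∂m, |weakGradient m f x - weakGradient m g x| ≤ weakGradient m (f - g) x := by
  have hfg := gca_ls_sub hc hf hg
  have h1 := gca_wg_add_le hc hg hfg
  have h2 := gca_wg_sub_le hc hf hfg
  have e1 : g + (f - g) = f := by
    funext x
    simp
  have e2 : f - (f - g) = g := by
    funext x
    simp
  rw [e1] at h1
  rw [e2] at h2
  filter_upwards [h1, h2] with x a1 a2
  rw [abs_le]
  constructor <;> linarith

/-- `|D(u + ε v)| ≤ |Du| + |ε| |Dv|`. -/
theorem gca_wg_add_smul_le (hc : gca_Calc m) (hf : LocalSobolev m f) (hg : LocalSobolev m g) (ε : ℝ) :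
    ∀ᵐ x ∂m, weakGradient m (f + ε • g) x ≤ weakGradient m f x + |ε| * weakGradient m g x := by
  filter_upwards [gca_wg_add_le hc hf (gca_ls_smul hc ε hg), gca_wg_smul hc ε hg] with x a1 a2
  rw [a2] at a1
  exact a1

end Claimed.Agent.R210.GCA.Basic
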