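/-
Row 210 (S0432), layer GCA, file Sob: the frozen class `Sobolev m` (`f ∈ L²`, `LocalSobolev`, `|Df| ∈ L²`) is a vector space, stable under Lipschitz maps, products of bounded functions; integrability lemmas.     Architect: helper375.
Tools: `GCA/Basic.lean`;  Mathlib: `MemLp.add`, `MemLp.const_mul`, `MemLp.mono'`/`MemLp.of_le`/`MemLp.mono`, `MemLp.integrable_mul`, `MemLp.integrable_sq`, `memLp_two_iff_integrable_sq`, `Integrable.bdd_mul`, `MemLp.indicator`, `memLp_indicator_iff_restrict`, `integral_mono_of_nonneg`.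
-/
import Claimed.Agent.R210.GCA.Basic

set_option autoImplicit false
set_option linter.unusedSectionVars false

open Claims.C0366 Claims.C0366.WeakHessian
open Set Filter MeasureTheory
open scoped ENNReal NNReal Topology

namespace Claimed.Agent.R210.GCA.Sob

open Claimed.Agent.R210.Defs Claimed.Agent.R210.GCA.Defs Claimed.Agent.R210.GCA.Basic

variable {X : Type*} [MetricSpace X] [MeasurableSpace X] [BorelSpace X] {m : Measure X} {f g φ : X → ℝ}

/-! ### membership -/

/-- criterion: `0 ≤ |Df| ≤ D ∈ L²`   (`gca_wg_aesm`, `gca_wg_nonneg`, `MemLp.mono'`). -/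
theorem gca_sob_of_le (hf2 : MemLp f 2 m) (hf : LocalSobolev m f) {D : X → ℝ} (hD : MemLp D 2 m)
    (h : ∀ᵐ x ∂m, weakGradient m f x ≤ D x) : Sobolev m f := by
  refine ⟨hf2, hf, hD.mono' (gca_wg_aesm hf) ?_⟩
  filter_upwards [h, gca_wg_nonneg hf] with x h1 h2
  rw [Real.norm_eq_abs, abs_of_nonneg h2]
  exact h1

theorem gca_sob_add (hc : gca_Calc m) (hf : Sobolev m f) (hg : Sobolev m g) : Sobolev m (f + g) :=
  gca_sob_of_le (hf.1.add hg.1) (gca_ls_add hc hf.2.1 hg.2.1) (hf.2.2.add hg.2.2) (gca_wg_add_le hc hf.2.1 hg.2.1)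

/-- `gca_sob_of_le` with `D = |c| |Df|`. -/
theorem gca_sob_smul (hc : gca_Calc m) (c : ℝ) (hf : Sobolev m f) : Sobolev m (c • f) := by
  refine gca_sob_of_le (hf.1.const_smul c) (gca_ls_smul hc c hf.2.1) (hf.2.2.const_mul |c|) ?_
  filter_upwards [gca_wg_smul hc c hf.2.1] with x hx
  exact hx.le

theorem gca_sob_neg (hc : gca_Calc m) (hf : Sobolev m f) : Sobolev m (-f) := by
  refine gca_sob_of_le hf.1.neg (gca_ls_neg hc hf.2.1) hf.2.2 ?_
  filter_upwards [gca_wg_neg hc hf.2.1] with x hx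
  exact hx.le

theorem gca_sob_sub (hc : gca_Calc m) (hf : Sobolev m f) (hg : Sobolev m g) : Sobolev m (f - g) :=
  gca_sob_of_le (hf.1.sub hg.1) (gca_ls_sub hc hf.2.1 hg.2.1) (hf.2.2.add hg.2.2) (gca_wg_sub_le hc hf.2.1 hg.2.1)

theorem gca_sob_zero (hc : gca_Calc m) : Sobolev m (0 : X → ℝ) := by
  refine gca_sob_of_le (D := 0) MemLp.zero (gca_ls_const hc 0) MemLp.zero ?_
  filter_upwards [gca_wg_const hc 0] with x hx
  exact hx.le

/-- **A `LocalSobolev` function which vanishes outside a ball is `Sobolev`.**   `B = ball o (|R| + 1)`.   `f = B.indicator f` (pointwise), `f ∈ L²(m|B)` (`hf.1`): `memLp_indicator_iff_restrict`.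
`|Df| = 0` a.e. outside `B` (`gca_wg_eq_zero_of_eq hc hf 0`), so `|Df| =ᵐ B.indicator |Df|`, `|Df| ∈ L²(m|B)` (`gca_wg_locL2`). -/
theorem gca_sob_of_supp (hc : gca_Calc m) (hf : LocalSobolev m f) {o : X} {R : ℝ} (h0 : ∀ x, R < dist x o → f x = 0) :
    Sobolev m f := by
  have hR : 0 < |R| + 1 := by positivity
  have hB : MeasurableSet (Metric.ball o (|R| + 1)) := Metric.isOpen_ball.measurableSet
  have hout : ∀ x, x ∉ Metric.ball o (|R| + 1) → f x = 0 := by
    intro x hx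
    apply h0
    rw [Metric.mem_ball, not_lt] at hx
    have := le_abs_self R
    linarith
  have e1 : (Metric.ball o (|R| + 1)).indicator f = f := by
    funext x
    by_cases hx : x ∈ Metric.ball o (|R| + 1)
    · exact indicator_of_mem hx f
    · rw [indicator_of_notMem hx, hout x hx]
  have h1 : MemLp f 2 m := by
    rw [← e1]
    exact (memLp_indicator_iff_restrict hB).2 (hf.1 o _ hR)
  have e2 : (Metric.ball o (|R| + 1)).indicator (weakGradient m f) =ᵐ[m] weakGradient m f := by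
    filter_upwards [gca_wg_eq_zero_of_eq hc hf 0] with x hx
    by_cases hx' : x ∈ Metric.ball o (|R| + 1)
    · exact indicator_of_mem hx' _
    · rw [indicator_of_notMem hx', hx (hout x hx')]
  have h2 : MemLp (weakGradient m f) 2 m :=
    (memLp_congr_ae e2).1 ((memLp_indicator_iff_restrict hB).2 (gca_wg_locL2 hf o _ hR))
  exact ⟨h1, hf, h2⟩

theorem gca_ls_wt (hc : gca_Calc m) (hφ : gca_Wt φ) : LocalSobolev m φ := by
  obtain ⟨L, hL⟩ := hφ.lip
  exact (hc.lip L φ hL).1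

theorem gca_sob_wt (hc : gca_Calc m) (hφ : gca_Wt φ) : Sobolev m φ := by
  obtain ⟨o, R, h0⟩ := hφ.supp
  exact gca_sob_of_supp hc (gca_ls_wt hc hφ) h0

/-- `|ψ (f x)| ≤ L |f x|` (`ψ 0 = 0`), `ψ ∘ f` a.e. strongly measurable (`hψ.continuous.comp_aestronglyMeasurable`), `|D(ψ∘f)| ≤ L |Df|` (`hc.comp`), `gca_sob_of_le`. -/
theorem gca_sob_comp (hc : gca_Calc m) {L : ℝ≥0} {ψ : ℝ → ℝ} (hψ : LipschitzWith L ψ) (h0 : ψ 0 = 0) (hf : Sobolev m f) :
    Sobolev m (fun x => ψ (f x)) := by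
  have h1 := hc.comp L ψ f hψ hf.2.1
  have hb : ∀ x, ‖ψ (f x)‖ ≤ (L : ℝ) * ‖f x‖ := by
    intro x
    have := hψ.dist_le_mul (f x) 0
    rwa [h0, dist_zero_right, dist_zero_right] at this
  have h2 : MemLp (fun x => ψ (f x)) 2 m :=
    MemLp.of_le_mul (c := (L : ℝ)) hf.1 (hψ.continuous.comp_aestronglyMeasurable hf.1.aestronglyMeasurable)
      (Eventually.of_forall hb)
  exact gca_sob_of_le h2 h1.1 (hf.2.2.const_mul (L : ℝ)) h1.2

/-- `|f g| ≤ B |f|`;   `|D(fg)| ≤ |f| |Dg| + |g| |Df| ≤ A |Dg| + B |Df|`;  `gca_sob_of_le`. -/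
theorem gca_sob_mul (hc : gca_Calc m) (hf : Sobolev m f) (hfb : BoundedFunction f) (hg : Sobolev m g)
    (hgb : BoundedFunction g) : Sobolev m (f * g) := by
  obtain ⟨A, hA⟩ := hfb
  obtain ⟨B, hB⟩ := hgb
  have h2 : MemLp (f * g) 2 m := by
    refine MemLp.of_le_mul (c := B) hf.1 (hf.1.aestronglyMeasurable.mul hg.1.aestronglyMeasurable)
      (Eventually.of_forall fun x => ?_)
    rw [Pi.mul_apply, norm_mul, mul_comm]
    exact mul_le_mul_of_nonneg_right (hB x) (norm_nonneg _)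
  refine gca_sob_of_le h2 (gca_ls_mul hc hf.2.1 hg.2.1 ⟨A, hA⟩ ⟨B, hB⟩)
    ((hg.2.2.const_mul A).add (hf.2.2.const_mul B)) ?_
  filter_upwards [gca_wg_mul_le hc hf.2.1 hg.2.1 ⟨A, hA⟩ ⟨B, hB⟩, gca_wg_nonneg hf.2.1, gca_wg_nonneg hg.2.1]
    with x hx h1 h3
  refine hx.trans ?_
  exact add_le_add (mul_le_mul_of_nonneg_right (hA x) h3) (mul_le_mul_of_nonneg_right (hB x) h1)

theorem gca_bdd_mul (hfb : BoundedFunction f) (hgb : BoundedFunction g) : BoundedFunction (f * g) := by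
  obtain ⟨A, hA⟩ := hfb
  obtain ⟨B, hB⟩ := hgb
  refine ⟨A * B, fun x => ?_⟩
  rw [Pi.mul_apply, abs_mul]
  exact mul_le_mul (hA x) (hB x) (abs_nonneg _) ((abs_nonneg _).trans (hA x))

theorem gca_bdd_add (hfb : BoundedFunction f) (hgb : BoundedFunction g) : BoundedFunction (f + g) := by
  obtain ⟨A, hA⟩ := hfb
  obtain ⟨B, hB⟩ := hgb
  exact ⟨A + B, fun x => (abs_add_le _ _).trans (add_le_add (hA x) (hB x))⟩

theorem gca_bdd_sub (hfb : BoundedFunction f) (hgb : BoundedFunction g) : BoundedFunction (f - g) := by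
  obtain ⟨A, hA⟩ := hfb
  obtain ⟨B, hB⟩ := hgb
  exact ⟨A + B, fun x => (abs_sub _ _).trans (add_le_add (hA x) (hB x))⟩

theorem gca_bdd_neg (hfb : BoundedFunction f) : BoundedFunction (-f) := by
  obtain ⟨A, hA⟩ := hfb
  exact ⟨A, fun x => by rw [Pi.neg_apply, abs_neg]; exact hA x⟩

/-! ### integrability -/

theorem gca_int_wg_sq (hf : Sobolev m f) : Integrable (fun x => weakGradient m f x ^ 2) m :=
  hf.2.2.integrable_sq

theorem gca_int_wg_mul (hf : Sobolev m f) (hg : Sobolev m g) :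
    Integrable (fun x => weakGradient m f x * weakGradient m g x) m :=
  hf.2.2.integrable_mul hg.2.2

/-- (`Integrable.bdd_mul`.) -/
theorem gca_int_bdd_mul {b h : X → ℝ} (hb : BoundedFunction b) (hbm : AEStronglyMeasurable b m) (hh : Integrable h m) :
    Integrable (fun x => b x * h x) m := by
  obtain ⟨B, hB⟩ := hb
  exact hh.bdd_mul hbm (Eventually.of_forall fun x => hB x)

/-! ### the energy -/

theorem gca_energy_nonneg (m : Measure X) (f : X → ℝ) : 0 ≤ energy m f :=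
  integral_nonneg fun _ => sq_nonneg _

theorem gca_energy_congr (h : ∀ᵐ x ∂m, weakGradient m f x = weakGradient m g x) : energy m f = energy m g := by
  unfold energy
  refine integral_congr_ae ?_
  filter_upwards [h] with x hx
  rw [hx]

/-- `0 ≤ |Df| ≤ A`  ⟹  `∫ |Df|² ≤ ∫ A²`   (`integral_mono_of_nonneg`, `pow_le_pow_left₀`). -/
theorem gca_energy_le (hf : LocalSobolev m f) {A : X → ℝ} (hA : Integrable (fun x => A x ^ 2) m)
    (h : ∀ᵐ x ∂m, weakGradient m f x ≤ A x) : energy m f ≤ ∫ x, A x ^ 2 ∂m := by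
  unfold energy
  refine integral_mono_of_nonneg (Eventually.of_forall fun _ => sq_nonneg _) hA ?_
  filter_upwards [h, gca_wg_nonneg hf] with x hx h0
  exact pow_le_pow_left₀ h0 hx 2

theorem gca_energy_smul (hc : gca_Calc m) (c : ℝ) (hf : LocalSobolev m f) : energy m (c • f) = c ^ 2 * energy m f := by
  unfold energy
  rw [← integral_const_mul]
  refine integral_congr_ae ?_
  filter_upwards [gca_wg_smul hc c hf] with x hx
  rw [hx, mul_pow, sq_abs]

theorem gca_energy_neg (hc : gca_Calc m) (hf : LocalSobolev m f) : energy m (-f) = energy m f :=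
  gca_energy_congr (gca_wg_neg hc hf)

end Claimed.Agent.R210.GCA.Sob
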