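/-
Row 210 (S0432), layer GCA, file Form: the Dirichlet form `gca_E m u v = (energy (u+v) - energy (u-v))/4` is symmetric and bilinear on the frozen Sobolev class.     Architect: helper375.
Tools: `GCA/JvN.lean` (abstract Jordan - von Neumann) with `V = X → ℝ`, `S = gca_W hc` (Sobolev functions), `q = energy m`;  `gca_E m u v = gca_B (energy m) u v` by `rfl`.
-/
import Claimed.Agent.R210.GCA.Sob
import Claimed.Agent.R210.GCA.JvN

set_option autoImplicit false
set_option linter.unusedSectionVars false

open Claims.C0366 Claims.C0366.WeakHessian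
open Set Filter MeasureTheory
open scoped ENNReal NNReal Topology

namespace Claimed.Agent.R210.GCA.Form

open Claimed.Agent.R210.Defs Claimed.Agent.R210.GCA.Defs Claimed.Agent.R210.GCA.Basic Claimed.Agent.R210.GCA.Sob
  Claimed.Agent.R210.GCA.JvN

variable {X : Type*} [MetricSpace X] [MeasurableSpace X] [BorelSpace X] {m : Measure X} {u v w : X → ℝ}

/-- the submodule of the Sobolev functions -/
def gca_W (hc : gca_Calc m) : Submodule ℝ (X → ℝ) where
  carrier := {f | Sobolev m f}
  add_mem' := fun hf hg => gca_sob_add hc hf hg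
  zero_mem' := gca_sob_zero hc
  smul_mem' := fun c _ hf => gca_sob_smul hc c hf

theorem gca_mem_W (hc : gca_Calc m) {f : X → ℝ} : f ∈ gca_W hc ↔ Sobolev m f := Iff.rfl

theorem gca_par (hc : gca_Calc m) : ∀ u ∈ gca_W hc, ∀ v ∈ gca_W hc,
    energy m (u + v) + energy m (u - v) = 2 * energy m u + 2 * energy m v :=
  fun u hu v hv => hc.par u v hu hv

/-- **Quantitative continuity.**   `A_t = |D(u + t v)|`.   `|A_t - A_s| ≤ |D((t-s) v)| = |t-s| |Dv|` (`gca_wg_abs_sub_le`, `(u + t • v) - (u + s • v) = (t - s) • v`, `gca_wg_smul`),  `A_t + A_s ≤ 2 |Du| + (|t|+|s|) |Dv|` (`gca_wg_add_smul_le`), so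
`|A_t² - A_s²| ≤ |t-s| |Dv| (2 |Du| + (|t|+|s|) |Dv|)` a.e.; integrate (`norm_integral_le_of_norm_le` or `abs_integral_le_integral_abs` + `integral_mono`;  `integral_sub`, `gca_int_wg_sq`, `gca_int_wg_mul`). -/
theorem gca_energy_diff_le (hc : gca_Calc m) (hu : Sobolev m u) (hv : Sobolev m v) (s t : ℝ) :
    |energy m (u + t • v) - energy m (u + s • v)|
      ≤ |t - s| * (2 * ∫ x, weakGradient m u x * weakGradient m v x ∂m + (|t| + |s|) * energy m v) := by
  have htv : Sobolev m (u + t • v) := gca_sob_add hc hu (gca_sob_smul hc t hv)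
  have hsv : Sobolev m (u + s • v) := gca_sob_add hc hu (gca_sob_smul hc s hv)
  have e : (u + t • v) - (u + s • v) = (t - s) • v := by
    funext x
    simp only [Pi.sub_apply, Pi.add_apply, Pi.smul_apply, smul_eq_mul]
    ring
  have h1 := gca_wg_abs_sub_le hc htv.2.1 hsv.2.1
  rw [e] at h1
  have hI1 := gca_int_wg_mul hu hv
  have hI2 := gca_int_wg_sq hv
  have hbI : Integrable (fun x => |t - s| * (2 * (weakGradient m u x * weakGradient m v x)
      + (|t| + |s|) * weakGradient m v x ^ 2)) m :=
    ((hI1.const_mul 2).add (hI2.const_mul (|t| + |s|))).const_mul _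
  have hae : ∀ᵐ x ∂m, ‖weakGradient m (u + t • v) x ^ 2 - weakGradient m (u + s • v) x ^ 2‖
      ≤ |t - s| * (2 * (weakGradient m u x * weakGradient m v x)
      + (|t| + |s|) * weakGradient m v x ^ 2) := by
    filter_upwards [h1, gca_wg_smul hc (t - s) hv.2.1, gca_wg_add_smul_le hc hu.2.1 hv.2.1 t,
      gca_wg_add_smul_le hc hu.2.1 hv.2.1 s, gca_wg_nonneg htv.2.1, gca_wg_nonneg hsv.2.1,
      gca_wg_nonneg hv.2.1] with x a1 a2 a3 a4 a5 a6 a7
    rw [a2] at a1
    rw [Real.norm_eq_abs]
    have e2 : weakGradient m (u + t • v) x ^ 2 - weakGradient m (u + s • v) x ^ 2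
        = (weakGradient m (u + t • v) x - weakGradient m (u + s • v) x)
          * (weakGradient m (u + t • v) x + weakGradient m (u + s • v) x) := by ring
    rw [e2, abs_mul, abs_of_nonneg (add_nonneg a5 a6)]
    calc |weakGradient m (u + t • v) x - weakGradient m (u + s • v) x|
          * (weakGradient m (u + t • v) x + weakGradient m (u + s • v) x)
        ≤ (|t - s| * weakGradient m v x)
          * ((weakGradient m u x + |t| * weakGradient m v x)
            + (weakGradient m u x + |s| * weakGradient m v x)) :=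
          mul_le_mul a1 (add_le_add a3 a4) (add_nonneg a5 a6)
            (mul_nonneg (abs_nonneg _) a7)
      _ = _ := by ring
  have hfin := norm_integral_le_of_norm_le hbI hae
  unfold energy
  rw [← integral_sub (gca_int_wg_sq htv) (gca_int_wg_sq hsv), ← Real.norm_eq_abs]
  refine hfin.trans (le_of_eq ?_)
  rw [integral_const_mul, integral_add (hI1.const_mul 2) (hI2.const_mul (|t| + |s|)),
    integral_const_mul, integral_const_mul]

/-- from `gca_energy_diff_le`  (`Metric.continuous_iff` / `continuous_iff_continuousAt` + squeeze: for `|s - t| ≤ 1` the second factor is `≤ C = 2 ∫ .. + (2|t| + 1) energy v`). -/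
theorem gca_energy_cont (hc : gca_Calc m) (hu : Sobolev m u) (hv : Sobolev m v) :
    Continuous fun t : ℝ => energy m (u + t • v) := by
  rw [continuous_iff_continuousAt]
  intro t
  set A : ℝ := ∫ x, weakGradient m u x * weakGradient m v x ∂m with hA
  have hlim : Tendsto (fun s : ℝ => |s - t| * (2 * A + (|s| + |t|) * energy m v)) (𝓝 t) (𝓝 0) := by
    have hcont : Continuous (fun s : ℝ => |s - t| * (2 * A + (|s| + |t|) * energy m v)) := by
      fun_prop
    have := hcont.tendsto t
    simpa using this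
  unfold ContinuousAt
  rw [tendsto_iff_dist_tendsto_zero]
  refine squeeze_zero (fun _ => dist_nonneg) (fun s => ?_) hlim
  rw [Real.dist_eq]
  exact gca_energy_diff_le hc hu hv t s

theorem gca_cont (hc : gca_Calc m) : ∀ u ∈ gca_W hc, ∀ v ∈ gca_W hc, Continuous fun t : ℝ => energy m (u + t • v) :=
  fun _ hu _ hv => gca_energy_cont hc hu hv

/-! ### bilinearity -/

theorem gca_E_comm (hc : gca_Calc m) (hu : Sobolev m u) (hv : Sobolev m v) : gca_E m u v = gca_E m v u :=
  gca_jvn_comm (gca_par hc) hu hv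

theorem gca_E_self (hc : gca_Calc m) (hu : Sobolev m u) : gca_E m u u = energy m u :=
  gca_jvn_self (gca_par hc) hu

theorem gca_E_add_left (hc : gca_Calc m) (hu : Sobolev m u) (hv : Sobolev m v) (hw : Sobolev m w) :
    gca_E m (u + v) w = gca_E m u w + gca_E m v w :=
  gca_jvn_add (gca_par hc) hu hv hw

theorem gca_E_smul_left (hc : gca_Calc m) (t : ℝ) (hu : Sobolev m u) (hw : Sobolev m w) :
    gca_E m (t • u) w = t * gca_E m u w :=
  gca_jvn_smul (gca_par hc) (gca_cont hc) t hu hw

theorem gca_E_add_right (hc : gca_Calc m) (hu : Sobolev m u) (hv : Sobolev m v) (hw : Sobolev m w) :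
    gca_E m u (v + w) = gca_E m u v + gca_E m u w := by
  rw [gca_E_comm hc hu (gca_sob_add hc hv hw), gca_E_add_left hc hv hw hu, gca_E_comm hc hv hu, gca_E_comm hc hw hu]

theorem gca_E_smul_right (hc : gca_Calc m) (t : ℝ) (hu : Sobolev m u) (hw : Sobolev m w) :
    gca_E m u (t • w) = t * gca_E m u w := by
  rw [gca_E_comm hc hu (gca_sob_smul hc t hw), gca_E_smul_left hc t hw hu, gca_E_comm hc hw hu]

/-- `-u = (-1) • u`. -/
theorem gca_E_neg_left (hc : gca_Calc m) (hu : Sobolev m u) (hw : Sobolev m w) : gca_E m (-u) w = -gca_E m u w := by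
  have e : -u = (-1 : ℝ) • u := by simp
  rw [e, gca_E_smul_left hc (-1) hu hw]
  ring

theorem gca_E_neg_right (hc : gca_Calc m) (hu : Sobolev m u) (hw : Sobolev m w) : gca_E m u (-w) = -gca_E m u w := by
  have e : -w = (-1 : ℝ) • w := by simp
  rw [e, gca_E_smul_right hc (-1) hu hw]
  ring

theorem gca_E_sub_left (hc : gca_Calc m) (hu : Sobolev m u) (hv : Sobolev m v) (hw : Sobolev m w) :
    gca_E m (u - v) w = gca_E m u w - gca_E m v w := by
  have e : u - v = u + (-1 : ℝ) • v := by simp [sub_eq_add_neg]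
  rw [e, gca_E_add_left hc hu (gca_sob_smul hc (-1) hv) hw, gca_E_smul_left hc (-1) hv hw]
  ring

theorem gca_E_sub_right (hc : gca_Calc m) (hu : Sobolev m u) (hv : Sobolev m v) (hw : Sobolev m w) :
    gca_E m u (v - w) = gca_E m u v - gca_E m u w := by
  have e : v - w = v + (-1 : ℝ) • w := by simp [sub_eq_add_neg]
  rw [e, gca_E_add_right hc hu hv (gca_sob_smul hc (-1) hw), gca_E_smul_right hc (-1) hu hw]
  ring

/-- `energy (u + ε v) = E(u + ε v, u + ε v)`, expand. -/
theorem gca_energy_add_smul (hc : gca_Calc m) (hu : Sobolev m u) (hv : Sobolev m v) (ε : ℝ) :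
    energy m (u + ε • v) = energy m u + 2 * ε * gca_E m u v + ε ^ 2 * energy m v := by
  have hεv : Sobolev m (ε • v) := gca_sob_smul hc ε hv
  have hs : Sobolev m (u + ε • v) := gca_sob_add hc hu hεv
  rw [← gca_E_self hc hs, gca_E_add_left hc hu hεv hs, gca_E_add_right hc hu hu hεv,
    gca_E_add_right hc hεv hu hεv, gca_E_smul_right hc ε hu hv, gca_E_smul_left hc ε hv hu,
    gca_E_smul_left hc ε hv hεv, gca_E_smul_right hc ε hv hv, gca_E_self hc hu, gca_E_self hc hv,
    gca_E_comm hc hv hu]
  ring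

theorem gca_form_hygiene : True := by
  have := @gca_W.eq_1.{0}
  trivial

end Claimed.Agent.R210.GCA.Form
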