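/-
Row 210 (S0432), layer GCA, file Var: FIRST VARIATION estimates for the Dirichlet form.     Architect: helper375.
Principle:  `energy (u + ε v) = energy u + 2 ε E(u,v) + ε² energy v` (`gca_energy_add_smul`);  an a.e. upper bound for `|D(u + ε v)|`, squared and integrated, valid for ALL real `ε`, gives after `ε → 0±` a two sided bound for `E(u,v)` (`gca_first_var`).
 (KI)  `|E(u,v)| ≤ ∫ |Du| |Dv|`                                         from `|D(u + ε v)| ≤ |Du| + |ε| |Dv|`;
 (ST)  `|E(f, fφ) - ∫ φ |Df|²| ≤ ∫ |f| |Df| |Dφ|`                       from `f + ε fφ = f (1 + εφ)`, `|D(f (1+εφ))| ≤ |1+εφ| |Df| + |ε| |f| |Dφ|`;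
 (SM)  `|Dft φ f| ≤ 2 δ ∫ |Df| |Dφ|`  if `|f| ≤ δ`                       from (ST), (KI) and `|D(f²)| ≤ 2 |f| |Df|`.
-/
import Claimed.Agent.R210.GCA.Form

set_option autoImplicit false
set_option linter.unusedSectionVars false

open Claims.C0366 Claims.C0366.WeakHessian
open Set Filter MeasureTheory
open scoped ENNReal NNReal Topology

namespace Claimed.Agent.R210.GCA.Var

open Claimed.Agent.R210.Defs Claimed.Agent.R210.GCA.Defs Claimed.Agent.R210.GCA.Basic Claimed.Agent.R210.GCA.Sob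
  Claimed.Agent.R210.GCA.Form

variable {X : Type*} [MetricSpace X] [MeasurableSpace X] [BorelSpace X] {m : Measure X} {u v f φ : X → ℝ}

/-- real lemma.   `ε > 0`: `a ≤ b + ε c / 2`;  `ε < 0`: `-a ≤ b + |ε| c / 2`;   `ε → 0`  (if `c ≤ 0` take `ε = ± 1`; if `c > 0` and `|a| > b` take `ε = ± (|a| - b)/c`). -/
theorem gca_first_var {a b c : ℝ} (h : ∀ ε : ℝ, 2 * ε * a ≤ 2 * |ε| * b + ε ^ 2 * c) : |a| ≤ b := by
  by_contra hcon
  have hcon' : b < |a| := not_le.1 hcon
  obtain ⟨s, hs1, hsa⟩ : ∃ s : ℝ, |s| = 1 ∧ s * a = |a| := by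
    rcases le_total 0 a with h0 | h0
    · exact ⟨1, by simp, by rw [abs_of_nonneg h0, one_mul]⟩
    · exact ⟨-1, by simp, by rw [abs_of_nonpos h0]; ring⟩
  have key : ∀ δ : ℝ, 0 < δ → 2 * δ * |a| ≤ 2 * δ * b + δ ^ 2 * c := by
    intro δ hδ
    have h1 := h (δ * s)
    rw [abs_mul, hs1, abs_of_pos hδ, mul_one] at h1
    have e : (δ * s) ^ 2 = δ ^ 2 := by rw [mul_pow, ← sq_abs s, hs1]; ring
    rw [e] at h1
    calc 2 * δ * |a| = 2 * (δ * s) * a := by rw [← hsa]; ring
      _ ≤ _ := h1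
  rcases le_or_gt c 0 with hc | hc
  · have h1 := key 1 one_pos
    nlinarith
  · have hδ : 0 < (|a| - b) / c := div_pos (sub_pos.2 hcon') hc
    have h1 := key _ hδ
    have e : (|a| - b) / c * c = |a| - b := div_mul_cancel₀ _ hc.ne'
    have e2 : ((|a| - b) / c) ^ 2 * c = (|a| - b) / c * (|a| - b) := by
      rw [sq, mul_assoc, e]
    rw [e2] at h1
    have h2 : 0 < (|a| - b) / c * (|a| - b) := mul_pos hδ (sub_pos.2 hcon')
    nlinarith

/-- **(KI)**.   For every `ε`:  `energy (u + ε v) ≤ ∫ (|Du| + |ε| |Dv|)² = energy u + 2 |ε| ∫ |Du||Dv| + ε² energy v`  (`gca_energy_le`, `gca_wg_add_smul_le`; expand the square under the integral: `integral_add`, `integral_const_mul`/`integral_mul_left`, `gca_int_wg_sq`, `gca_int_wg_mul`).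
With `gca_energy_add_smul`:  `2 ε E(u,v) ≤ 2 |ε| ∫ |Du||Dv| + ε² · 0`;  `gca_first_var`. -/
theorem gca_E_abs_le (hc : gca_Calc m) (hu : Sobolev m u) (hv : Sobolev m v) :
    |gca_E m u v| ≤ ∫ x, weakGradient m u x * weakGradient m v x ∂m := by
  refine gca_first_var (c := 0) fun ε => ?_
  have i1 : Integrable (fun x => weakGradient m u x ^ 2) m := gca_int_wg_sq hu
  have i2 : Integrable (fun x => (2 * |ε|) * (weakGradient m u x * weakGradient m v x)) m :=
    (gca_int_wg_mul hu hv).const_mul _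
  have i3 : Integrable (fun x => ε ^ 2 * weakGradient m v x ^ 2) m := (gca_int_wg_sq hv).const_mul _
  have i12 : Integrable (fun x => weakGradient m u x ^ 2
      + (2 * |ε|) * (weakGradient m u x * weakGradient m v x)) m := i1.add i2
  have hA_eq : (fun x => (weakGradient m u x + |ε| * weakGradient m v x) ^ 2)
      = fun x => weakGradient m u x ^ 2 + (2 * |ε|) * (weakGradient m u x * weakGradient m v x)
        + ε ^ 2 * weakGradient m v x ^ 2 := by
    funext x
    rw [← sq_abs ε]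
    ring
  have hAi : Integrable (fun x => (weakGradient m u x + |ε| * weakGradient m v x) ^ 2) m := by
    rw [hA_eq]
    exact i12.add i3
  have h1 := gca_energy_le (gca_ls_add hc hu.2.1 (gca_ls_smul hc ε hv.2.1)) hAi
    (gca_wg_add_smul_le hc hu.2.1 hv.2.1 ε)
  have h2 : ∫ x, (weakGradient m u x + |ε| * weakGradient m v x) ^ 2 ∂m
      = energy m u + 2 * |ε| * (∫ x, weakGradient m u x * weakGradient m v x ∂m) + ε ^ 2 * energy m v := by
    rw [hA_eq, integral_add i12 i3, integral_add i1 i2, integral_const_mul, integral_const_mul]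
    rfl
  rw [h2, gca_energy_add_smul hc hu hv ε] at h1
  linarith

/-- strong locality of the form  (`gca_E_abs_le`, `integral_congr_ae`, `integral_zero`). -/
theorem gca_E_eq_zero (hc : gca_Calc m) (hu : Sobolev m u) (hv : Sobolev m v)
    (h : ∀ᵐ x ∂m, weakGradient m u x * weakGradient m v x = 0) : gca_E m u v = 0 := by
  have h1 := gca_E_abs_le hc hu hv
  have h2 : ∫ x, weakGradient m u x * weakGradient m v x ∂m = 0 := by
    rw [integral_congr_ae (g := fun _ => (0 : ℝ)) h, integral_zero]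
  rw [h2] at h1
  exact abs_eq_zero.1 (le_antisymm h1 (abs_nonneg _))

/-- a.e. bound for the gradient of `f + ε fφ = f (1 + εφ)`.    `w = fun x => 1 + ε * φ x` is Lipschitz (so `LocalSobolev`: `hc.lip`; or `gca_ls_add`, `gca_ls_const`, `gca_ls_smul`) and bounded;  `|Dw| ≤ |D 1| + |ε| |Dφ| = |ε| |Dφ|` (`hc.add`, `gca_wg_const`, `gca_wg_smul`);
`hc.mul f w`;  `f + ε • (f * φ) = fun x => f x * w x` by `funext`, `ring`. -/
theorem gca_wg_star (hc : gca_Calc m) (hf : Sobolev m f) (hfb : BoundedFunction f) (hφ : gca_Wt φ) (ε : ℝ) :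
    ∀ᵐ x ∂m, weakGradient m (f + ε • (f * φ)) x
      ≤ |1 + ε * φ x| * weakGradient m f x + |ε| * (|f x| * weakGradient m φ x) := by
  have hφl : LocalSobolev m φ := gca_ls_wt hc hφ
  have h1 := hc.add (fun _ => (1 : ℝ)) (fun x => ε * φ x) (gca_ls_const hc 1) (hc.smul ε φ hφl).1
  have hwb : BoundedFunction (fun x => 1 + ε * φ x) := by
    obtain ⟨B, hB⟩ := hφ.bdd
    refine ⟨1 + |ε| * B, fun x => ?_⟩
    calc |1 + ε * φ x| ≤ |(1 : ℝ)| + |ε * φ x| := abs_add_le _ _
      _ = 1 + |ε| * |φ x| := by rw [abs_one, abs_mul]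
      _ ≤ 1 + |ε| * B := by
          have := mul_le_mul_of_nonneg_left (hB x) (abs_nonneg ε)
          linarith
  have h2 := hc.mul f (fun x => 1 + ε * φ x) hf.2.1 h1.1 hfb hwb
  have e : f + ε • (f * φ) = fun x => f x * (1 + ε * φ x) := by
    funext x
    simp only [Pi.add_apply, Pi.smul_apply, Pi.mul_apply, smul_eq_mul]
    ring
  rw [e]
  filter_upwards [h2.2, h1.2, gca_wg_const hc 1, (hc.smul ε φ hφl).2] with x a1 a2 a3 a4
  rw [a3, a4, zero_add] at a2
  have a5 := mul_le_mul_of_nonneg_left a2 (abs_nonneg (f x))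
  calc weakGradient m (fun x => f x * (1 + ε * φ x)) x
      ≤ |f x| * weakGradient m (fun x => 1 + ε * φ x) x + |1 + ε * φ x| * weakGradient m f x := a1
    _ ≤ |f x| * (|ε| * weakGradient m φ x) + |1 + ε * φ x| * weakGradient m f x := by linarith
    _ = |1 + ε * φ x| * weakGradient m f x + |ε| * (|f x| * weakGradient m φ x) := by ring

/-- the constant of the second order term in (ST) -/
noncomputable def gca_kap (m : Measure X) (φ f : X → ℝ) : ℝ :=
  ∫ x, (φ x ^ 2 * weakGradient m f x ^ 2 + 2 * (|φ x| * (|f x| * (weakGradient m f x * weakGradient m φ x)))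
    + f x ^ 2 * weakGradient m φ x ^ 2) ∂m

/-- with `a = |Df|`, `b = |f| |Dφ|`, `w = 1 + εφ`:   `(|w| a + |ε| b)² = w² a² + 2 |ε| |w| a b + ε² b² ≤ a² + 2 ε φ a² + 2 |ε| a b + ε² (φ² a² + 2 |φ| a b + b²)`   (`|w| ≤ 1 + |ε| |φ|`, `a, b ≥ 0` a.e.).
Integrate (`gca_energy_le` with `A = |w| a + |ε| b`, then `integral_mono`);   all functions are (bounded measurable) × (product of two `L²` functions): `gca_int_bdd_mul`, `gca_int_wg_sq`, `gca_int_wg_mul`;  `φ`, `f` are a.e. strongly measurable (`gca_ls_aesm`). -/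
theorem gca_energy_star (hc : gca_Calc m) (hf : Sobolev m f) (hfb : BoundedFunction f) (hφ : gca_Wt φ) (ε : ℝ) :
    energy m (f + ε • (f * φ)) ≤ energy m f + 2 * ε * gca_I m φ f
      + 2 * |ε| * (∫ x, |f x| * (weakGradient m f x * weakGradient m φ x) ∂m) + ε ^ 2 * gca_kap m φ f := by
  have hφl : LocalSobolev m φ := gca_ls_wt hc hφ
  have hφs : Sobolev m φ := gca_sob_wt hc hφ
  have hφm : AEStronglyMeasurable φ m := gca_ls_aesm hφl
  have hfm : AEStronglyMeasurable f m := gca_ls_aesm hf.2.1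
  obtain ⟨Bφ, hBφ⟩ := hφ.bdd
  obtain ⟨Bf, hBf⟩ := hfb
  have hls : LocalSobolev m (f + ε • (f * φ)) :=
    gca_ls_add hc hf.2.1 (gca_ls_smul hc ε (gca_ls_mul hc hf.2.1 hφl ⟨Bf, hBf⟩ hφ.bdd))
  -- bounded coefficients
  have bw : ∀ x, |1 + ε * φ x| ≤ 1 + |ε| * Bφ := fun x => by
    calc |1 + ε * φ x| ≤ |(1 : ℝ)| + |ε * φ x| := abs_add_le _ _
      _ = 1 + |ε| * |φ x| := by rw [abs_one, abs_mul]
      _ ≤ 1 + |ε| * Bφ := by
          have := mul_le_mul_of_nonneg_left (hBφ x) (abs_nonneg ε)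
          linarith
  have b1 : BoundedFunction (fun x => |f x|) := ⟨Bf, fun x => by rw [abs_abs]; exact hBf x⟩
  have b2 : BoundedFunction (fun x => |φ x|) := ⟨Bφ, fun x => by rw [abs_abs]; exact hBφ x⟩
  have b3 : BoundedFunction (fun x => φ x ^ 2) :=
    ⟨Bφ ^ 2, fun x => by rw [abs_pow]; exact pow_le_pow_left₀ (abs_nonneg _) (hBφ x) 2⟩
  have b4 : BoundedFunction (fun x => f x ^ 2) :=
    ⟨Bf ^ 2, fun x => by rw [abs_pow]; exact pow_le_pow_left₀ (abs_nonneg _) (hBf x) 2⟩
  have b5 : BoundedFunction (fun x => (1 + ε * φ x) ^ 2) :=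
    ⟨(1 + |ε| * Bφ) ^ 2, fun x => by rw [abs_pow]; exact pow_le_pow_left₀ (abs_nonneg _) (bw x) 2⟩
  have b6 : BoundedFunction (fun x => |1 + ε * φ x|) := ⟨1 + |ε| * Bφ, fun x => by rw [abs_abs]; exact bw x⟩
  have m1 : AEStronglyMeasurable (fun x => |f x|) m := continuous_abs.comp_aestronglyMeasurable hfm
  have m2 : AEStronglyMeasurable (fun x => |φ x|) m := continuous_abs.comp_aestronglyMeasurable hφm
  have m3 : AEStronglyMeasurable (fun x => φ x ^ 2) m := hφm.pow 2
  have m4 : AEStronglyMeasurable (fun x => f x ^ 2) m := hfm.pow 2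
  have m5 : AEStronglyMeasurable (fun x => (1 + ε * φ x) ^ 2) m :=
    (by fun_prop : Continuous fun t : ℝ => (1 + ε * t) ^ 2).comp_aestronglyMeasurable hφm
  have m6 : AEStronglyMeasurable (fun x => |1 + ε * φ x|) m :=
    (by fun_prop : Continuous fun t : ℝ => |1 + ε * t|).comp_aestronglyMeasurable hφm
  -- integrable pieces
  have J1 : Integrable (fun x => weakGradient m f x ^ 2) m := gca_int_wg_sq hf
  have J1' : Integrable (fun x => weakGradient m φ x ^ 2) m := gca_int_wg_sq hφs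
  have J2 : Integrable (fun x => φ x * weakGradient m f x ^ 2) m := gca_int_bdd_mul hφ.bdd hφm J1
  have J3 : Integrable (fun x => |f x| * (weakGradient m f x * weakGradient m φ x)) m :=
    gca_int_bdd_mul b1 m1 (gca_int_wg_mul hf hφs)
  have K1 : Integrable (fun x => φ x ^ 2 * weakGradient m f x ^ 2) m := gca_int_bdd_mul b3 m3 J1
  have K2 : Integrable (fun x => |φ x| * (|f x| * (weakGradient m f x * weakGradient m φ x))) m :=
    gca_int_bdd_mul b2 m2 J3
  have K3 : Integrable (fun x => f x ^ 2 * weakGradient m φ x ^ 2) m := gca_int_bdd_mul b4 m4 J1'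
  have J4 : Integrable (fun x => φ x ^ 2 * weakGradient m f x ^ 2
      + 2 * (|φ x| * (|f x| * (weakGradient m f x * weakGradient m φ x)))
      + f x ^ 2 * weakGradient m φ x ^ 2) m := (K1.add (K2.const_mul 2)).add K3
  have A1 : Integrable (fun x => (1 + ε * φ x) ^ 2 * weakGradient m f x ^ 2) m := gca_int_bdd_mul b5 m5 J1
  have A2 : Integrable (fun x => |1 + ε * φ x| * (|f x| * (weakGradient m f x * weakGradient m φ x))) m :=
    gca_int_bdd_mul b6 m6 J3
  have hAeq : ∀ x, (|1 + ε * φ x| * weakGradient m f x + |ε| * (|f x| * weakGradient m φ x)) ^ 2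
      = (1 + ε * φ x) ^ 2 * weakGradient m f x ^ 2
        + (2 * |ε|) * (|1 + ε * φ x| * (|f x| * (weakGradient m f x * weakGradient m φ x)))
        + ε ^ 2 * (f x ^ 2 * weakGradient m φ x ^ 2) := fun x => by
    have e1 := sq_abs (1 + ε * φ x)
    have e2 := sq_abs ε
    have e3 := sq_abs (f x)
    calc (|1 + ε * φ x| * weakGradient m f x + |ε| * (|f x| * weakGradient m φ x)) ^ 2
        = |1 + ε * φ x| ^ 2 * weakGradient m f x ^ 2
          + (2 * |ε|) * (|1 + ε * φ x| * (|f x| * (weakGradient m f x * weakGradient m φ x)))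
          + |ε| ^ 2 * (|f x| ^ 2 * weakGradient m φ x ^ 2) := by ring
      _ = _ := by rw [e1, e2, e3]
  have hA : Integrable
      (fun x => (|1 + ε * φ x| * weakGradient m f x + |ε| * (|f x| * weakGradient m φ x)) ^ 2) m := by
    have := (A1.add (A2.const_mul (2 * |ε|))).add (K3.const_mul (ε ^ 2))
    refine this.congr (Eventually.of_forall fun x => ?_)
    exact (hAeq x).symm
  have h1 := gca_energy_le hls hA (gca_wg_star hc hf ⟨Bf, hBf⟩ hφ ε)
  have hR : Integrable (fun x => weakGradient m f x ^ 2 + (2 * ε) * (φ x * weakGradient m f x ^ 2)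
      + (2 * |ε|) * (|f x| * (weakGradient m f x * weakGradient m φ x))
      + ε ^ 2 * (φ x ^ 2 * weakGradient m f x ^ 2
      + 2 * (|φ x| * (|f x| * (weakGradient m f x * weakGradient m φ x)))
      + f x ^ 2 * weakGradient m φ x ^ 2)) m :=
    ((J1.add (J2.const_mul (2 * ε))).add (J3.const_mul (2 * |ε|))).add (J4.const_mul (ε ^ 2))
  have h2 : ∫ x, (|1 + ε * φ x| * weakGradient m f x + |ε| * (|f x| * weakGradient m φ x)) ^ 2 ∂m
      ≤ ∫ x, (weakGradient m f x ^ 2 + (2 * ε) * (φ x * weakGradient m f x ^ 2)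
      + (2 * |ε|) * (|f x| * (weakGradient m f x * weakGradient m φ x))
      + ε ^ 2 * (φ x ^ 2 * weakGradient m f x ^ 2
      + 2 * (|φ x| * (|f x| * (weakGradient m f x * weakGradient m φ x)))
      + f x ^ 2 * weakGradient m φ x ^ 2)) ∂m := by
    refine integral_mono_ae hA hR ?_
    filter_upwards [gca_wg_nonneg hf.2.1, gca_wg_nonneg hφl] with x ha hd
    show (|1 + ε * φ x| * weakGradient m f x + |ε| * (|f x| * weakGradient m φ x)) ^ 2 ≤ _
    rw [hAeq x]
    have hw : |1 + ε * φ x| ≤ 1 + |ε| * |φ x| := by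
      calc |1 + ε * φ x| ≤ |(1 : ℝ)| + |ε * φ x| := abs_add_le _ _
        _ = 1 + |ε| * |φ x| := by rw [abs_one, abs_mul]
    have hp : 0 ≤ (2 * |ε|) * (|f x| * (weakGradient m f x * weakGradient m φ x)) := by positivity
    have h3 := mul_le_mul_of_nonneg_left hw hp
    have e2 : |ε| * |ε| = ε ^ 2 := by rw [← sq, sq_abs]
    have e4 : (2 * |ε|) * (|f x| * (weakGradient m f x * weakGradient m φ x)) * (1 + |ε| * |φ x|)
        = (2 * |ε|) * (|f x| * (weakGradient m f x * weakGradient m φ x))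
          + ε ^ 2 * (2 * (|φ x| * (|f x| * (weakGradient m f x * weakGradient m φ x)))) := by
      linear_combination (2 * (|f x| * (weakGradient m f x * weakGradient m φ x)) * |φ x|) * e2
    rw [e4] at h3
    nlinarith [h3]
  have h3 : ∫ x, (weakGradient m f x ^ 2 + (2 * ε) * (φ x * weakGradient m f x ^ 2)
      + (2 * |ε|) * (|f x| * (weakGradient m f x * weakGradient m φ x))
      + ε ^ 2 * (φ x ^ 2 * weakGradient m f x ^ 2
      + 2 * (|φ x| * (|f x| * (weakGradient m f x * weakGradient m φ x)))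
      + f x ^ 2 * weakGradient m φ x ^ 2)) ∂m
      = energy m f + 2 * ε * gca_I m φ f
      + 2 * |ε| * (∫ x, |f x| * (weakGradient m f x * weakGradient m φ x) ∂m) + ε ^ 2 * gca_kap m φ f := by
    have S1 : Integrable (fun x => weakGradient m f x ^ 2 + (2 * ε) * (φ x * weakGradient m f x ^ 2)) m :=
      J1.add (J2.const_mul (2 * ε))
    have S2 : Integrable (fun x => weakGradient m f x ^ 2 + (2 * ε) * (φ x * weakGradient m f x ^ 2)
        + (2 * |ε|) * (|f x| * (weakGradient m f x * weakGradient m φ x))) m :=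
      S1.add (J3.const_mul (2 * |ε|))
    rw [integral_add S2 (J4.const_mul (ε ^ 2)), integral_add S1 (J3.const_mul (2 * |ε|)),
      integral_add J1 (J2.const_mul (2 * ε)), integral_const_mul, integral_const_mul, integral_const_mul]
    rfl
  exact h1.trans (h2.trans h3.le)

/-- **(ST)**.   `gca_energy_star`, `gca_energy_add_smul` (`f * φ` is Sobolev: `gca_sob_mul`, `gca_sob_wt`), `gca_first_var` with `a = E(f,fφ) - ∫ φ|Df|²`, `c = gca_kap - energy (f φ)`. -/
theorem gca_star (hc : gca_Calc m) (hf : Sobolev m f) (hfb : BoundedFunction f) (hφ : gca_Wt φ) :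
    |gca_E m f (f * φ) - gca_I m φ f| ≤ ∫ x, |f x| * (weakGradient m f x * weakGradient m φ x) ∂m := by
  have hfφ : Sobolev m (f * φ) := gca_sob_mul hc hf hfb (gca_sob_wt hc hφ) hφ.bdd
  refine gca_first_var (c := gca_kap m φ f - energy m (f * φ)) fun ε => ?_
  have h1 := gca_energy_star hc hf hfb hφ ε
  rw [gca_energy_add_smul hc hf hfφ ε] at h1
  nlinarith

/-- **(SM)**.   `|E(f,fφ) - ∫φ|Df|²| ≤ ∫ |f| |Df||Dφ| ≤ δ R` (`gca_star`, `integral_mono`);   `|E(f², φ)| ≤ ∫ |D(f²)| |Dφ| ≤ 2 δ R` (`gca_E_abs_le`, `gca_wg_mul_le` with `g = f`: `|D(f f)| ≤ 2 |f| |Df| ≤ 2 δ |Df|`, `gca_wg_nonneg`). -/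
theorem gca_Dft_small (hc : gca_Calc m) (hf : Sobolev m f) (hφ : gca_Wt φ) {δ : ℝ} (hδ : ∀ x, |f x| ≤ δ) :
    |gca_Dft m φ f| ≤ 2 * δ * gca_R m φ f := by
  have hfb : BoundedFunction f := ⟨δ, hδ⟩
  have hφs : Sobolev m φ := gca_sob_wt hc hφ
  have hff : Sobolev m (f * f) := gca_sob_mul hc hf hfb hf hfb
  have hab : Integrable (fun x => weakGradient m f x * weakGradient m φ x) m := gca_int_wg_mul hf hφs
  have hfn := gca_wg_nonneg hf.2.1
  have hφn := gca_wg_nonneg hφs.2.1
  have h1 := gca_star hc hf hfb hφ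
  have h2 : ∫ x, |f x| * (weakGradient m f x * weakGradient m φ x) ∂m ≤ δ * gca_R m φ f := by
    unfold gca_R
    rw [← integral_const_mul]
    refine integral_mono_ae ?_ (hab.const_mul δ) ?_
    · refine gca_int_bdd_mul (b := fun x => |f x|) ⟨δ, fun x => by rw [abs_abs]; exact hδ x⟩ ?_ hab
      exact (gca_ls_aesm hf.2.1).norm
    · filter_upwards [hfn, hφn] with x ha hb
      exact mul_le_mul_of_nonneg_right (hδ x) (mul_nonneg ha hb)
  have h3 := gca_E_abs_le hc hff hφs
  have h4 : ∫ x, weakGradient m (f * f) x * weakGradient m φ x ∂m ≤ 2 * δ * gca_R m φ f := by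
    unfold gca_R
    rw [← integral_const_mul]
    refine integral_mono_ae (gca_int_wg_mul hff hφs) (hab.const_mul (2 * δ)) ?_
    filter_upwards [hfn, hφn, gca_wg_mul_le hc hf.2.1 hf.2.1 hfb hfb] with x ha hb hm
    have h5 : weakGradient m (f * f) x ≤ 2 * δ * weakGradient m f x := by
      have := mul_le_mul_of_nonneg_right (hδ x) ha
      linarith
    calc weakGradient m (f * f) x * weakGradient m φ x ≤ (2 * δ * weakGradient m f x) * weakGradient m φ x :=
          mul_le_mul_of_nonneg_right h5 hb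
      _ = 2 * δ * (weakGradient m f x * weakGradient m φ x) := by ring
  unfold gca_Dft
  have e : gca_E m f (f * φ) - gca_E m (f * f) φ / 2 - gca_I m φ f
      = (gca_E m f (f * φ) - gca_I m φ f) - gca_E m (f * f) φ / 2 := by ring
  rw [e]
  have h6 := abs_sub (gca_E m f (f * φ) - gca_I m φ f) (gca_E m (f * f) φ / 2)
  have h7 : |gca_E m (f * f) φ / 2| = |gca_E m (f * f) φ| / 2 := by
    rw [abs_div, abs_of_pos (by norm_num : (0 : ℝ) < 2)]
  linarith

theorem gca_var_hygiene : True := by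
  have := @gca_kap.eq_1.{0}
  trivial

end Claimed.Agent.R210.GCA.Var
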