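/-
Row 210 (S0432), layer GCA, file Slice: the defect is ADDITIVE over slices.     Architect: helper375.
Situation (SL):  `u, s` bounded Sobolev, `t` real,  `∀ x, s x ≠ 0 → u x = t`      (example: `u = min f t`, `s = (f - t)₊`).     `Z = {s = 0}`.
 (a) `|Ds| = 0` a.e. on `Z`;  (b) `|Du| = 0` a.e. on `Zᶜ` (`u = t` there);   more generally a Sobolev function which vanishes on `Z` (resp. `Zᶜ`) has `|D·| = 0` a.e. there  (`gca_wg_eq_zero_of_eq`).
 (c) `|D(u+s)| = |Du| + |Ds|` a.e.:  on `Z`: `u + s = u` (locality `hc.loc`), `|Ds| = 0`;   on `Zᶜ`: `u + s = s + t` (locality with `fun x => s x + t`, `gca_wg_add_const`), `|Du| = 0`.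
 (d) `E(u, sφ) = 0`  (`sφ = 0` on `Z`; `gca_E_eq_zero`);    `E(s, uφ - tφ) = 0`  (`(u - t)φ = 0` on `Zᶜ`),  so  `E(s, uφ) = t E(s, φ)`.
 (e) `(u+s)(u+s) = u u + (2t) • s + s s`,   `(u+s) φ = uφ + sφ`   pointwise (`u x * s x = t * s x`).
 ⟹  `Dft (u+s) = Dft u + Dft s`,   `R (u+s) = R u + R s`.
-/
import Claimed.Agent.R210.GCA.Var

set_option autoImplicit false
set_option linter.unusedSectionVars false

open Claims.C0366 Claims.C0366.WeakHessian
open Set Filter MeasureTheory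
open scoped ENNReal NNReal Topology

namespace Claimed.Agent.R210.GCA.Slice

open Claimed.Agent.R210.Defs Claimed.Agent.R210.GCA.Defs Claimed.Agent.R210.GCA.Basic Claimed.Agent.R210.GCA.Sob
  Claimed.Agent.R210.GCA.Form Claimed.Agent.R210.GCA.Var

variable {X : Type*} [MetricSpace X] [MeasurableSpace X] [BorelSpace X] {m : Measure X} {u s φ : X → ℝ} {t : ℝ}

/-- (a), (b), (c) of the header. -/
theorem gca_slice_wg (hc : gca_Calc m) (hu : LocalSobolev m u) (hs : LocalSobolev m s) (h : ∀ x, s x ≠ 0 → u x = t) :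
    ∀ᵐ x ∂m, weakGradient m (u + s) x = weakGradient m u x + weakGradient m s x ∧
      (s x = 0 → weakGradient m s x = 0) ∧ (s x ≠ 0 → weakGradient m u x = 0) := by
  have hus := gca_ls_add hc hu hs
  filter_upwards [gca_wg_eq_zero_of_eq hc hs 0, gca_wg_eq_zero_of_eq hc hu t, hc.loc (u + s) u hus hu,
    hc.loc (u + s) (fun x => s x + t) hus (gca_ls_add_const hc hs t), gca_wg_add_const hc hs t] with x h1 h2 h3 h4 h5
  refine ⟨?_, h1, fun hx => h2 (h x hx)⟩
  by_cases hx : s x = 0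
  · rw [h3 (by simp [hx]), h1 hx, add_zero]
  · rw [h4 (by simp [h x hx, add_comm]), h5, h2 (h x hx), zero_add]

/-- from `gca_slice_wg`: `(a + b)² = a² + b²` when `a b = 0`;  `integral_add`, `gca_int_bdd_mul`, `gca_int_wg_sq`. -/
theorem gca_I_slice (hc : gca_Calc m) (hu : Sobolev m u) (hs : Sobolev m s) (hφ : gca_Wt φ) (h : ∀ x, s x ≠ 0 → u x = t) :
    gca_I m φ (u + s) = gca_I m φ u + gca_I m φ s := by
  have hφm := gca_ls_aesm (gca_ls_wt hc hφ)
  unfold gca_I
  rw [← integral_add (gca_int_bdd_mul hφ.bdd hφm (gca_int_wg_sq hu)) (gca_int_bdd_mul hφ.bdd hφm (gca_int_wg_sq hs))]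
  apply integral_congr_ae
  filter_upwards [gca_slice_wg hc hu.2.1 hs.2.1 h] with x hx
  obtain ⟨h1, h2, h3⟩ := hx
  rw [h1]
  by_cases hx : s x = 0
  · rw [h2 hx]; ring
  · rw [h3 hx]; ring

theorem gca_R_slice (hc : gca_Calc m) (hu : Sobolev m u) (hs : Sobolev m s) (hφ : gca_Wt φ) (h : ∀ x, s x ≠ 0 → u x = t) :
    gca_R m φ (u + s) = gca_R m φ u + gca_R m φ s := by
  have hφs := gca_sob_wt hc hφ
  unfold gca_R
  rw [← integral_add (gca_int_wg_mul hu hφs) (gca_int_wg_mul hs hφs)]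
  apply integral_congr_ae
  filter_upwards [gca_slice_wg hc hu.2.1 hs.2.1 h] with x hx
  rw [hx.1]
  ring

/-- (d), first part. -/
theorem gca_E_slice_left (hc : gca_Calc m) (hu : Sobolev m u) (hs : Sobolev m s) (hsb : BoundedFunction s) (hφ : gca_Wt φ)
    (h : ∀ x, s x ≠ 0 → u x = t) : gca_E m u (s * φ) = 0 := by
  have hsφ : Sobolev m (s * φ) := gca_sob_mul hc hs hsb (gca_sob_wt hc hφ) hφ.bdd
  refine gca_E_eq_zero hc hu hsφ ?_
  filter_upwards [gca_slice_wg hc hu.2.1 hs.2.1 h, gca_wg_eq_zero_of_eq hc hsφ.2.1 0] with x h1 h2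
  by_cases hx : s x = 0
  · rw [h2 (by simp [hx]), mul_zero]
  · rw [h1.2.2 hx, zero_mul]

/-- (d), second part. -/
theorem gca_E_slice_right (hc : gca_Calc m) (hu : Sobolev m u) (hub : BoundedFunction u) (hs : Sobolev m s) (hφ : gca_Wt φ)
    (h : ∀ x, s x ≠ 0 → u x = t) : gca_E m s (u * φ) = t * gca_E m s φ := by
  have hφs : Sobolev m φ := gca_sob_wt hc hφ
  have huφ : Sobolev m (u * φ) := gca_sob_mul hc hu hub hφs hφ.bdd
  have htφ : Sobolev m (t • φ) := gca_sob_smul hc t hφs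
  have hw : Sobolev m (u * φ - t • φ) := gca_sob_sub hc huφ htφ
  have h0 : gca_E m s (u * φ - t • φ) = 0 := by
    refine gca_E_eq_zero hc hs hw ?_
    filter_upwards [gca_slice_wg hc hu.2.1 hs.2.1 h, gca_wg_eq_zero_of_eq hc hw.2.1 0] with x h1 h2
    by_cases hx : s x = 0
    · rw [h1.2.1 hx, zero_mul]
    · rw [h2 (by simp [h x hx]), mul_zero]
  rw [gca_E_sub_right hc hs huφ htφ, gca_E_smul_right hc t hs hφs] at h0
  linarith

/-- **Additivity of the defect.**   Expand with the bilinearity (`gca_E_add_left`, `gca_E_add_right`, `gca_E_smul_left`), (e) of the header (`funext`), `gca_E_slice_left`, `gca_E_slice_right`, `gca_I_slice`. -/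
theorem gca_Dft_slice (hc : gca_Calc m) (hu : Sobolev m u) (hub : BoundedFunction u) (hs : Sobolev m s)
    (hsb : BoundedFunction s) (hφ : gca_Wt φ) (h : ∀ x, s x ≠ 0 → u x = t) :
    gca_Dft m φ (u + s) = gca_Dft m φ u + gca_Dft m φ s := by
  have hφs : Sobolev m φ := gca_sob_wt hc hφ
  have huφ : Sobolev m (u * φ) := gca_sob_mul hc hu hub hφs hφ.bdd
  have hsφ : Sobolev m (s * φ) := gca_sob_mul hc hs hsb hφs hφ.bdd
  have huu : Sobolev m (u * u) := gca_sob_mul hc hu hub hu hub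
  have hss : Sobolev m (s * s) := gca_sob_mul hc hs hsb hs hsb
  have hts : Sobolev m ((2 * t) • s) := gca_sob_smul hc (2 * t) hs
  have e1 : (u + s) * φ = u * φ + s * φ := add_mul u s φ
  have e2 : (u + s) * (u + s) = u * u + (2 * t) • s + s * s := by
    funext x
    simp only [Pi.add_apply, Pi.mul_apply, Pi.smul_apply, smul_eq_mul]
    by_cases hx : s x = 0
    · rw [hx]; ring
    · rw [h x hx]; ring
  unfold gca_Dft
  rw [e1, e2, gca_I_slice hc hu hs hφ h, gca_E_add_left hc hu hs (gca_sob_add hc huφ hsφ),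
    gca_E_add_right hc hu huφ hsφ, gca_E_add_right hc hs huφ hsφ, gca_E_slice_left hc hu hs hsb hφ h,
    gca_E_slice_right hc hu hub hs hφ h, gca_E_add_left hc (gca_sob_add hc huu hts) hss hφs,
    gca_E_add_left hc huu hts hφs, gca_E_smul_left hc (2 * t) hs hφs]
  ring

end Claimed.Agent.R210.GCA.Slice
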