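/-
Row 210 (S0432), layer GCA, file Ident: THE IDENTITY   `∫ φ |Df|² = E(f, fφ) - E(f², φ)/2`   for bounded Sobolev `f` and test weights `φ`, i.e. `gca_Dft m φ f = 0`.     Architect: helper375.
 (1) `0 ≤ f ≤ n δ`  ⟹  `|Dft f| ≤ 2 δ R(f)`:   induction on `n` for all `f`.   `n = 0`: `gca_Dft_small` (`|f| ≤ 0 ≤ δ`).    `n + 1`:  `u = min f (nδ)`, `s = (f - nδ)₊`, `f = u + s`, `s x ≠ 0 → u x = nδ`, `0 ≤ u ≤ nδ`, `|s| ≤ δ`;
     `gca_Dft_slice`, `gca_R_slice`, induction hypothesis for `u`, `gca_Dft_small` for `s`.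
 (2) `0 ≤ f ≤ M`:  `|Dft f| ≤ 2 (M/n) R(f)` for all `n ≥ 1`  ⟹  `Dft f = 0`.
 (3) `Dft (-f) = Dft f`.      (4) signed `f`:  `u = min f 0`, `s = max f 0`, `t = 0`:  `Dft f = Dft u + Dft s = Dft (-u) + Dft s = 0`.
-/
import Claimed.Agent.R210.GCA.Slice

set_option autoImplicit false
set_option linter.unusedSectionVars false

open Claims.C0366 Claims.C0366.WeakHessian
open Set Filter MeasureTheory
open scoped ENNReal NNReal Topology

namespace Claimed.Agent.R210.GCA.Ident

open Claimed.Agent.R210.Defs Claimed.Agent.R210.GCA.Defs Claimed.Agent.R210.GCA.Basic Claimed.Agent.R210.GCA.Sob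
  Claimed.Agent.R210.GCA.Form Claimed.Agent.R210.GCA.Var Claimed.Agent.R210.GCA.Slice

variable {X : Type*} [MetricSpace X] [MeasurableSpace X] [BorelSpace X] {m : Measure X} {f φ : X → ℝ}

/-- `z ↦ min z c` is `1`-Lipschitz and vanishes at `0` for `c ≥ 0`   (`gca_sob_comp`; `LipschitzWith.id.min (LipschitzWith.const c)` or `LipschitzWith.of_dist_le_mul` + `abs_min_sub_min_le_max`). -/
theorem gca_sob_min (hc : gca_Calc m) (hf : Sobolev m f) {c : ℝ} (h0 : 0 ≤ c) : Sobolev m (fun x => min (f x) c) := by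
  have hψ : LipschitzWith 1 (fun z : ℝ => min z c) := LipschitzWith.id.min_const c
  exact gca_sob_comp hc hψ (min_eq_left h0) hf

/-- `z ↦ max (z - c) 0` is `1`-Lipschitz and vanishes at `0` for `c ≥ 0`. -/
theorem gca_sob_pos (hc : gca_Calc m) (hf : Sobolev m f) {c : ℝ} (h0 : 0 ≤ c) : Sobolev m (fun x => max (f x - c) 0) := by
  have hψ : LipschitzWith (1 + 0) (fun z : ℝ => max (z - c) 0) :=
    (LipschitzWith.id.sub (LipschitzWith.const c)).max_const 0
  exact gca_sob_comp hc hψ (max_eq_right (by linarith)) hf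

/-- `z ↦ min z 0`. -/
theorem gca_sob_negPart (hc : gca_Calc m) (hf : Sobolev m f) : Sobolev m (fun x => min (f x) 0) :=
  gca_sob_min hc hf le_rfl

/-- (1) of the header. -/
theorem gca_Dft_le (hc : gca_Calc m) (hφ : gca_Wt φ) {δ : ℝ} (hδ : 0 ≤ δ) (n : ℕ) :
    ∀ f : X → ℝ, Sobolev m f → (∀ x, 0 ≤ f x ∧ f x ≤ n * δ) → |gca_Dft m φ f| ≤ 2 * δ * gca_R m φ f := by
  induction n with
  | zero =>
    intro f hf hb
    refine gca_Dft_small hc hf hφ fun x => ?_
    have h1 := (hb x).1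
    have h2 := (hb x).2
    rw [abs_of_nonneg h1]
    simp only [Nat.cast_zero, zero_mul] at h2
    linarith
  | succ n ih =>
    intro f hf hb
    have hn : (0 : ℝ) ≤ (n : ℝ) * δ := mul_nonneg (Nat.cast_nonneg n) hδ
    have hu : Sobolev m (fun x => min (f x) ((n : ℝ) * δ)) := gca_sob_min hc hf hn
    have hs : Sobolev m (fun x => max (f x - (n : ℝ) * δ) 0) := gca_sob_pos hc hf hn
    have hu01 : ∀ x, 0 ≤ min (f x) ((n : ℝ) * δ) ∧ min (f x) ((n : ℝ) * δ) ≤ (n : ℝ) * δ :=
      fun x => ⟨le_min (hb x).1 hn, min_le_right _ _⟩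
    have hub : BoundedFunction (fun x => min (f x) ((n : ℝ) * δ)) :=
      ⟨(n : ℝ) * δ, fun x => by rw [abs_of_nonneg (hu01 x).1]; exact (hu01 x).2⟩
    have hsδ : ∀ x, |max (f x - (n : ℝ) * δ) 0| ≤ δ := by
      intro x
      rw [abs_of_nonneg (le_max_right _ _)]
      refine max_le ?_ hδ
      have h2 := (hb x).2
      push_cast at h2
      linarith
    have hsb : BoundedFunction (fun x => max (f x - (n : ℝ) * δ) 0) := ⟨δ, hsδ⟩
    have h : ∀ x, (fun x => max (f x - (n : ℝ) * δ) 0) x ≠ 0 →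
        (fun x => min (f x) ((n : ℝ) * δ)) x = (n : ℝ) * δ := by
      intro x hx
      have hx' : max (f x - (n : ℝ) * δ) 0 ≠ 0 := hx
      show min (f x) ((n : ℝ) * δ) = (n : ℝ) * δ
      refine min_eq_right ?_
      by_contra hlt
      exact hx' (max_eq_right (by linarith [not_le.mp hlt]))
    have e : f = (fun x => min (f x) ((n : ℝ) * δ)) + (fun x => max (f x - (n : ℝ) * δ) 0) := by
      funext x
      show f x = min (f x) ((n : ℝ) * δ) + max (f x - (n : ℝ) * δ) 0
      rcases le_total (f x) ((n : ℝ) * δ) with hle | hle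
      · rw [min_eq_left hle, max_eq_right (by linarith)]; ring
      · rw [min_eq_right hle, max_eq_left (by linarith)]; ring
    have h1 := ih _ hu hu01
    have h2 := gca_Dft_small hc hs hφ hsδ
    have h3 := gca_Dft_slice hc hu hub hs hsb hφ h
    have h4 := gca_R_slice hc hu hs hφ h
    rw [e, h3, h4]
    calc |gca_Dft m φ (fun x => min (f x) ((n : ℝ) * δ)) + gca_Dft m φ (fun x => max (f x - (n : ℝ) * δ) 0)|
        ≤ |gca_Dft m φ (fun x => min (f x) ((n : ℝ) * δ))| + |gca_Dft m φ (fun x => max (f x - (n : ℝ) * δ) 0)| :=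
          abs_add_le _ _
      _ ≤ 2 * δ * gca_R m φ (fun x => min (f x) ((n : ℝ) * δ))
          + 2 * δ * gca_R m φ (fun x => max (f x - (n : ℝ) * δ) 0) := add_le_add h1 h2
      _ = 2 * δ * (gca_R m φ (fun x => min (f x) ((n : ℝ) * δ))
          + gca_R m φ (fun x => max (f x - (n : ℝ) * δ) 0)) := by ring

/-- (2) of the header. -/
theorem gca_Dft_nonneg (hc : gca_Calc m) (hφ : gca_Wt φ) (hf : Sobolev m f) (hfb : BoundedFunction f) (h0 : ∀ x, 0 ≤ f x) :
    gca_Dft m φ f = 0 := by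
  obtain ⟨B, hB⟩ := hfb
  by_contra hne
  have ha : 0 < |gca_Dft m φ f| := abs_pos.mpr hne
  set a := |gca_Dft m φ f| with ha_def
  set C := 2 * |B| * gca_R m φ f with hC_def
  obtain ⟨n, hn⟩ := exists_nat_gt (C / a)
  have hn1 : (0 : ℝ) < (n : ℝ) + 1 := by positivity
  have hδ : 0 ≤ |B| / ((n : ℝ) + 1) := by positivity
  have key := gca_Dft_le hc hφ hδ (n + 1) f hf (fun x => ⟨h0 x, by
    have h1 : ((n + 1 : ℕ) : ℝ) * (|B| / ((n : ℝ) + 1)) = |B| := by
      push_cast
      field_simp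
    rw [h1]
    exact ((le_abs_self _).trans (hB x)).trans (le_abs_self _)⟩)
  have h2 : 2 * (|B| / ((n : ℝ) + 1)) * gca_R m φ f = C / ((n : ℝ) + 1) := by
    rw [hC_def]; field_simp
  rw [h2] at key
  have h3 : a * ((n : ℝ) + 1) ≤ C := by
    rwa [le_div_iff₀ hn1] at key
  have h4 : C < (n : ℝ) * a := by
    rwa [div_lt_iff₀ ha] at hn
  nlinarith

/-- (3) of the header:  `(-f) * φ = -(f * φ)`, `(-f) * (-f) = f * f` (`funext`/`neg_mul`, `neg_mul_neg`), `gca_E_neg_left`, `gca_E_neg_right`, `gca_wg_neg` (`integral_congr_ae`). -/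
theorem gca_Dft_neg (hc : gca_Calc m) (hφ : gca_Wt φ) (hf : Sobolev m f) (hfb : BoundedFunction f) :
    gca_Dft m φ (-f) = gca_Dft m φ f := by
  have hφs : Sobolev m φ := gca_sob_wt hc hφ
  have hfφ : Sobolev m (f * φ) := gca_sob_mul hc hf hfb hφs hφ.bdd
  have e1 : (-f) * φ = -(f * φ) := neg_mul f φ
  have e2 : (-f) * (-f) = f * f := neg_mul_neg f f
  have e3 : gca_I m φ (-f) = gca_I m φ f := by
    unfold gca_I
    refine integral_congr_ae ?_
    filter_upwards [gca_wg_neg hc hf.2.1] with x hx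
    rw [hx]
  unfold gca_Dft
  rw [e1, e2, e3, gca_E_neg_left hc hf (gca_sob_neg hc hfφ), gca_E_neg_right hc hf hfφ, neg_neg]

/-- **(4): the identity.** -/
theorem gca_Dft_eq_zero (hc : gca_Calc m) (hφ : gca_Wt φ) (hf : Sobolev m f) (hfb : BoundedFunction f) :
    gca_Dft m φ f = 0 := by
  obtain ⟨B, hB⟩ := hfb
  have hu : Sobolev m (fun x => min (f x) 0) := gca_sob_negPart hc hf
  have hs : Sobolev m (fun x => max (f x) 0) := by
    have h := gca_sob_pos hc hf (le_refl (0 : ℝ))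
    simpa only [sub_zero] using h
  have hub : BoundedFunction (fun x => min (f x) 0) := ⟨B, fun x => by
    have h1 := hB x
    rcases le_total (f x) 0 with h | h
    · simpa only [min_eq_left h] using h1
    · simpa only [min_eq_right h, abs_zero] using (abs_nonneg (f x)).trans h1⟩
  have hsb : BoundedFunction (fun x => max (f x) 0) := ⟨B, fun x => by
    have h1 := hB x
    rcases le_total (f x) 0 with h | h
    · simpa only [max_eq_right h, abs_zero] using (abs_nonneg (f x)).trans h1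
    · simpa only [max_eq_left h] using h1⟩
  have hsl : ∀ x, (fun x => max (f x) 0) x ≠ 0 → (fun x => min (f x) 0) x = 0 := by
    intro x hx
    rcases le_total (f x) 0 with h | h
    · exact absurd (max_eq_right h) hx
    · exact min_eq_right h
  have hsum : f = (fun x => min (f x) 0) + (fun x => max (f x) 0) := by
    funext x
    show f x = min (f x) 0 + max (f x) 0
    rw [min_add_max, add_zero]
  have h1 := gca_Dft_slice hc hu hub hs hsb hφ hsl
  rw [← hsum] at h1
  have h2 : gca_Dft m φ (fun x => max (f x) 0) = 0 :=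
    gca_Dft_nonneg hc hφ hs hsb (fun x => le_max_right _ _)
  have h3 : gca_Dft m φ (fun x => min (f x) 0) = 0 := by
    rw [← gca_Dft_neg hc hφ hu hub]
    exact gca_Dft_nonneg hc hφ (gca_sob_neg hc hu) (gca_bdd_neg hub)
      (fun x => neg_nonneg.mpr (min_le_right _ _))
  rw [h1, h2, h3, add_zero]

/-- the identity, solved for `∫ φ |Df|²`. -/
theorem gca_I_eq (hc : gca_Calc m) (hφ : gca_Wt φ) (hf : Sobolev m f) (hfb : BoundedFunction f) :
    gca_I m φ f = gca_E m f (f * φ) - gca_E m (f * f) φ / 2 := by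
  have h := gca_Dft_eq_zero hc hφ hf hfb
  unfold gca_Dft at h
  linarith

end Claimed.Agent.R210.GCA.Ident
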