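/-
Row 210 (S0432), layer GCA, file Test: an integrable function which is orthogonal to all test weights vanishes a.e.     Architect: helper375.       PURE MEASURE THEORY (no Sobolev notions).
-/
import Claimed.Agent.R210.GCA.Defs

set_option autoImplicit false
set_option linter.unusedSectionVars false

open Claims.C0366 Claims.C0366.WeakHessian
open Set Filter MeasureTheory
open scoped ENNReal NNReal Topology

namespace Claimed.Agent.R210.GCA.Test

open Claimed.Agent.R210.Defs Claimed.Agent.R210.GCA.Defs

variable {X : Type*} [MetricSpace X] [MeasurableSpace X] [BorelSpace X] {m : Measure X}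

/-- the approximation of the indicator function of the closed set `s`:   `max 0 (min (1 - k infDist x s) (k + 1 - dist x o))`, cut at `1` by the first entry. -/
noncomputable def gca_bump (s : Set X) (o : X) (k : ℕ) (x : X) : ℝ :=
  max 0 (min (1 - (k : ℝ) * Metric.infDist x s) ((k : ℝ) + 1 - dist x o))

/-- Lipschitz (`Metric.lipschitz_infDist_pt`, `LipschitzWith.dist_left`/`LipschitzWith.id.dist (LipschitzWith.const o)`, `.const_mul`-type rules or directly `LipschitzWith.of_dist_le_mul`; `LipschitzWith.min`, `LipschitzWith.max`/`.const_max`),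
`0 ≤ bump ≤ 1` (`Metric.infDist_nonneg`),  `bump = 0` if `k + 1 < dist x o`. -/
theorem gca_bump_wt (s : Set X) (o : X) (k : ℕ) : gca_Wt (gca_bump s o k) := by
  have hk : (0 : ℝ) ≤ k := Nat.cast_nonneg k
  refine ⟨⟨max (k : ℝ≥0) 1, ?_⟩, ⟨1, fun x => ?_⟩, ⟨o, (k : ℝ) + 1, fun x hx => ?_⟩⟩
  · have h1 : LipschitzWith (k : ℝ≥0) (fun x => 1 - (k : ℝ) * Metric.infDist x s) := by
      refine LipschitzWith.of_dist_le_mul fun x y => ?_
      have h := (Metric.lipschitz_infDist_pt s).dist_le_mul x y
      rw [Real.dist_eq] at h ⊢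
      have e : (1 - (k : ℝ) * Metric.infDist x s) - (1 - (k : ℝ) * Metric.infDist y s)
          = -((k : ℝ) * (Metric.infDist x s - Metric.infDist y s)) := by ring
      rw [e, abs_neg, abs_mul, abs_of_nonneg hk]
      simp only [NNReal.coe_one, one_mul] at h
      simpa using mul_le_mul_of_nonneg_left h hk
    have h2 : LipschitzWith 1 (fun x => (k : ℝ) + 1 - dist x o) := by
      refine LipschitzWith.of_dist_le_mul fun x y => ?_
      rw [Real.dist_eq]
      have e : ((k : ℝ) + 1 - dist x o) - ((k : ℝ) + 1 - dist y o) = -(dist x o - dist y o) := by ring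
      rw [e, abs_neg]
      simpa using abs_dist_sub_le x y o
    exact (h1.min h2).const_max 0
  · have hi := Metric.infDist_nonneg (x := x) (s := s)
    have h0 : 0 ≤ gca_bump s o k x := le_max_left _ _
    rw [abs_of_nonneg h0]
    refine max_le zero_le_one ((min_le_left _ _).trans ?_)
    nlinarith [mul_nonneg hk hi]
  · refine max_eq_left ((min_le_right _ _).trans ?_)
    linarith

theorem gca_bump_mem (s : Set X) (o : X) (k : ℕ) (x : X) : 0 ≤ gca_bump s o k x ∧ gca_bump s o k x ≤ 1 := by
  have hk : (0 : ℝ) ≤ k := Nat.cast_nonneg k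
  have hi := Metric.infDist_nonneg (x := x) (s := s)
  refine ⟨le_max_left _ _, max_le zero_le_one ((min_le_left _ _).trans ?_)⟩
  nlinarith [mul_nonneg hk hi]

/-- `x ∈ s`: `infDist = 0`, `bump = min 1 (k + 1 - dist x o) = 1` for `k ≥ dist x o`;    `x ∉ s`: `infDist x s > 0` (`IsClosed.notMem_iff_infDist_pos`, `s` nonempty), `1 - k infDist < 0` for large `k`: `bump = 0`.   (`tendsto_const_nhds.congr'`/`tendsto_atTop_of_eventually_const`.) -/
theorem gca_bump_tendsto {s : Set X} (hs : IsClosed s) (hne : s.Nonempty) (o : X) (x : X) :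
    Tendsto (fun k => gca_bump s o k x) atTop (𝓝 (s.indicator (fun _ => (1 : ℝ)) x)) := by
  by_cases hx : x ∈ s
  · rw [indicator_of_mem hx]
    obtain ⟨n, hn⟩ := exists_nat_ge (dist x o)
    refine tendsto_const_nhds.congr' ?_
    filter_upwards [eventually_ge_atTop n] with k hk
    have hk' : (n : ℝ) ≤ k := Nat.cast_le.mpr hk
    have h0 : Metric.infDist x s = 0 := Metric.infDist_zero_of_mem hx
    unfold gca_bump
    rw [h0, mul_zero, sub_zero, min_eq_left (by linarith), max_eq_right zero_le_one]
  · rw [indicator_of_notMem hx]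
    have hpos : 0 < Metric.infDist x s := (hs.notMem_iff_infDist_pos hne).mp hx
    obtain ⟨n, hn⟩ := exists_nat_ge (1 / Metric.infDist x s)
    refine tendsto_const_nhds.congr' ?_
    filter_upwards [eventually_ge_atTop n] with k hk
    have hk' : (n : ℝ) ≤ k := Nat.cast_le.mpr hk
    have h1 : 1 ≤ (k : ℝ) * Metric.infDist x s := by
      have := (div_le_iff₀ hpos).mp (hn.trans hk')
      linarith
    unfold gca_bump
    exact (max_eq_left ((min_le_left _ _).trans (by linarith))).symm

/-- `∫_s h = lim ∫ bump_k h = 0`:   dominated convergence (`tendsto_integral_of_dominated_convergence` with the bound `|h|`), `integral_indicator`;    `s = ∅`: trivial. -/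
theorem gca_setIntegral_closed {h : X → ℝ} (hh : Integrable h m) (H : ∀ φ : X → ℝ, gca_Wt φ → ∫ x, φ x * h x ∂m = 0)
    {s : Set X} (hs : IsClosed s) : ∫ x in s, h x ∂m = 0 := by
  rcases s.eq_empty_or_nonempty with rfl | hne
  · simp
  obtain ⟨o, ho⟩ := hne
  have hne : s.Nonempty := ⟨o, ho⟩
  have hlim : Tendsto (fun k : ℕ => ∫ x, gca_bump s o k x * h x ∂m) atTop
      (𝓝 (∫ x, s.indicator (fun _ => (1 : ℝ)) x * h x ∂m)) := by
    refine tendsto_integral_of_dominated_convergence (fun x => |h x|) (fun k => ?_) hh.abs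
      (fun k => ?_) ?_
    · obtain ⟨L, hL⟩ := (gca_bump_wt s o k).lip
      exact hL.continuous.aestronglyMeasurable.mul hh.aestronglyMeasurable
    · refine Eventually.of_forall fun x => ?_
      obtain ⟨h0, h1⟩ := gca_bump_mem s o k x
      rw [Real.norm_eq_abs, abs_mul, abs_of_nonneg h0]
      exact mul_le_of_le_one_left (abs_nonneg _) h1
    · exact Eventually.of_forall fun x => (gca_bump_tendsto hs hne o x).mul_const _
  have hz : (fun k : ℕ => ∫ x, gca_bump s o k x * h x ∂m) = fun _ => 0 :=
    funext fun k => H _ (gca_bump_wt s o k)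
  rw [hz] at hlim
  have he := tendsto_nhds_unique hlim tendsto_const_nhds
  rw [← integral_indicator hs.measurableSet, ← he]
  refine integral_congr_ae (Eventually.of_forall fun x => ?_)
  by_cases hx : x ∈ s <;> simp [hx]

/-- (`ae_eq_zero_of_forall_setIntegral_isClosed_eq_zero`.) -/
theorem gca_ae_zero_of_test {h : X → ℝ} (hh : Integrable h m) (H : ∀ φ : X → ℝ, gca_Wt φ → ∫ x, φ x * h x ∂m = 0) :
    h =ᵐ[m] 0 :=
  ae_eq_zero_of_forall_setIntegral_isClosed_eq_zero hh fun _ hs => gca_setIntegral_closed hh H hs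

theorem gca_test_hygiene : True := by
  have := @gca_bump.eq_1.{0}
  trivial

end Claimed.Agent.R210.GCA.Test
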