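/-
Row 210 (S0432), layer GCA, file Bdd: the pointwise parallelogram identity for BOUNDED Sobolev functions.     Architect: helper375.
-/
import Claimed.Agent.R210.GCA.Ident
import Claimed.Agent.R210.GCA.Test

set_option autoImplicit false
set_option linter.unusedSectionVars false

open Claims.C0366 Claims.C0366.WeakHessian
open Set Filter MeasureTheory
open scoped ENNReal NNReal Topology

namespace Claimed.Agent.R210.GCA.Bdd

open Claimed.Agent.R210.Defs Claimed.Agent.R210.GCA.Defs Claimed.Agent.R210.GCA.Basic Claimed.Agent.R210.GCA.Sob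
  Claimed.Agent.R210.GCA.Form Claimed.Agent.R210.GCA.Ident Claimed.Agent.R210.GCA.Test

variable {X : Type*} [MetricSpace X] [MeasurableSpace X] [BorelSpace X] {m : Measure X} {f g φ : X → ℝ}

/-- **Weighted parallelogram law.**   `gca_I_eq` for `f + g`, `f - g`, `f`, `g`;   `(f ± g) * φ = f * φ ± g * φ`,   `(f+g)*(f+g) + (f-g)*(f-g) = 2 • (f*f) + 2 • (g*g)`;   bilinearity:
`E(f+g, fφ+gφ) + E(f-g, fφ-gφ) = 2 E(f,fφ) + 2 E(g,gφ)`,    `E((f+g)², φ) + E((f-g)², φ) = E((f+g)² + (f-g)², φ) = 2 E(f²,φ) + 2 E(g²,φ)`. -/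
theorem gca_I_par (hc : gca_Calc m) (hφ : gca_Wt φ) (hf : Sobolev m f) (hfb : BoundedFunction f) (hg : Sobolev m g)
    (hgb : BoundedFunction g) :
    gca_I m φ (f + g) + gca_I m φ (f - g) = 2 * gca_I m φ f + 2 * gca_I m φ g := by
  have hφs : Sobolev m φ := gca_sob_wt hc hφ
  have hfφ : Sobolev m (f * φ) := gca_sob_mul hc hf hfb hφs hφ.bdd
  have hgφ : Sobolev m (g * φ) := gca_sob_mul hc hg hgb hφs hφ.bdd
  have hff : Sobolev m (f * f) := gca_sob_mul hc hf hfb hf hfb
  have hgg : Sobolev m (g * g) := gca_sob_mul hc hg hgb hg hgb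
  have hfg : Sobolev m (f * g) := gca_sob_mul hc hf hfb hg hgb
  have e1 : (f + g) * φ = f * φ + g * φ := add_mul f g φ
  have e2 : (f - g) * φ = f * φ - g * φ := sub_mul f g φ
  have e3 : (f + g) * (f + g) = f * f + g * g + (2 : ℝ) • (f * g) := by
    funext x
    simp only [Pi.add_apply, Pi.mul_apply, Pi.smul_apply, smul_eq_mul]
    ring
  have e4 : (f - g) * (f - g) = f * f + g * g - (2 : ℝ) • (f * g) := by
    funext x
    simp only [Pi.add_apply, Pi.sub_apply, Pi.mul_apply, Pi.smul_apply, smul_eq_mul]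
    ring
  rw [gca_I_eq hc hφ (gca_sob_add hc hf hg) (gca_bdd_add hfb hgb),
    gca_I_eq hc hφ (gca_sob_sub hc hf hg) (gca_bdd_sub hfb hgb), gca_I_eq hc hφ hf hfb, gca_I_eq hc hφ hg hgb,
    e1, e2, e3, e4,
    gca_E_add_left hc hf hg (gca_sob_add hc hfφ hgφ), gca_E_add_right hc hf hfφ hgφ, gca_E_add_right hc hg hfφ hgφ,
    gca_E_sub_left hc hf hg (gca_sob_sub hc hfφ hgφ), gca_E_sub_right hc hf hfφ hgφ, gca_E_sub_right hc hg hfφ hgφ,
    gca_E_add_left hc (gca_sob_add hc hff hgg) (gca_sob_smul hc 2 hfg) hφs,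
    gca_E_sub_left hc (gca_sob_add hc hff hgg) (gca_sob_smul hc 2 hfg) hφs,
    gca_E_add_left hc hff hgg hφs]
  ring

theorem gca_P_integrable (hc : gca_Calc m) (hf : Sobolev m f) (hg : Sobolev m g) : Integrable (gca_P m f g) m := by
  have h1 := gca_int_wg_sq (gca_sob_add hc hf hg)
  have h2 := gca_int_wg_sq (gca_sob_sub hc hf hg)
  have h3 := (gca_int_wg_sq hf).const_mul 2
  have h4 := (gca_int_wg_sq hg).const_mul 2
  exact ((h1.add h2).sub h3).sub h4

/-- `∫ φ P = I(f+g) + I(f-g) - 2 I(f) - 2 I(g)`   (linearity of the integral; `gca_int_bdd_mul`, `gca_int_wg_sq`). -/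
theorem gca_P_test (hc : gca_Calc m) (hφ : gca_Wt φ) (hf : Sobolev m f) (hfb : BoundedFunction f) (hg : Sobolev m g)
    (hgb : BoundedFunction g) : ∫ x, φ x * gca_P m f g x ∂m = 0 := by
  have hφm : AEStronglyMeasurable φ m := gca_ls_aesm (gca_ls_wt hc hφ)
  have h1 := gca_int_bdd_mul hφ.bdd hφm (gca_int_wg_sq (gca_sob_add hc hf hg))
  have h2 := gca_int_bdd_mul hφ.bdd hφm (gca_int_wg_sq (gca_sob_sub hc hf hg))
  have h3 := gca_int_bdd_mul hφ.bdd hφm (gca_int_wg_sq hf)
  have h4 := gca_int_bdd_mul hφ.bdd hφm (gca_int_wg_sq hg)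
  have hpar := gca_I_par hc hφ hf hfb hg hgb
  unfold gca_I at hpar
  have e : (fun x => φ x * gca_P m f g x)
      = fun x => φ x * weakGradient m (f + g) x ^ 2 + φ x * weakGradient m (f - g) x ^ 2
          - 2 * (φ x * weakGradient m f x ^ 2) - 2 * (φ x * weakGradient m g x ^ 2) := by
    funext x
    unfold gca_P
    ring
  have i12 : Integrable (fun x => φ x * weakGradient m (f + g) x ^ 2 + φ x * weakGradient m (f - g) x ^ 2) m :=
    h1.add h2
  have i123 : Integrable (fun x => φ x * weakGradient m (f + g) x ^ 2 + φ x * weakGradient m (f - g) x ^ 2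
      - 2 * (φ x * weakGradient m f x ^ 2)) m := i12.sub (h3.const_mul 2)
  rw [e, integral_sub i123 (h4.const_mul 2), integral_sub i12 (h3.const_mul 2), integral_add h1 h2,
    integral_const_mul, integral_const_mul]
  linarith

theorem gca_P_bdd (hc : gca_Calc m) (hf : Sobolev m f) (hfb : BoundedFunction f) (hg : Sobolev m g)
    (hgb : BoundedFunction g) : gca_P m f g =ᵐ[m] 0 :=
  gca_ae_zero_of_test (gca_P_integrable hc hf hg) fun _ hφ => gca_P_test hc hφ hf hfb hg hgb

end Claimed.Agent.R210.GCA.Bdd
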