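/-
Row 210 (S0432), layer GCA, file Local: from bounded Sobolev functions to `LocalSobolev` functions, by truncation, cut-off and locality.     Architect: helper375.
`f_n = gca_trunc o n f = χ_n · T_n(f)`,   `χ_n = gca_chi o n` (`= 1` on `closedBall o n`, `= 0` outside `ball o (n+1)`, `1`-Lipschitz, values in `[0,1]`),   `T_n = gca_clamp n` (`1`-Lipschitz, values in `[-n,n]`).
On `A_n = {dist x o ≤ n, |f x| ≤ n, |g x| ≤ n}`:  `f_n = f`, `g_n = g`, so `f_n ± g_n = f ± g`; by locality (`hc.loc`) the four gradients agree a.e. on `A_n`:  `P(f,g) = P(f_n,g_n) = 0` a.e. on `A_n`;   `⋃ A_n = X`.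
-/
import Claimed.Agent.R210.GCA.Bdd

set_option autoImplicit false
set_option linter.unusedSectionVars false

open Claims.C0366 Claims.C0366.WeakHessian
open Set Filter MeasureTheory
open scoped ENNReal NNReal Topology

namespace Claimed.Agent.R210.GCA.Local

open Claimed.Agent.R210.Defs Claimed.Agent.R210.GCA.Defs Claimed.Agent.R210.GCA.Basic Claimed.Agent.R210.GCA.Sob
  Claimed.Agent.R210.GCA.Bdd

variable {X : Type*} [MetricSpace X] [MeasurableSpace X] [BorelSpace X] {m : Measure X} {f g : X → ℝ}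

theorem gca_chi_lip (o : X) (n : ℕ) : LipschitzWith 1 (gca_chi o n) := by
  have h1 : LipschitzWith 1 (fun x : X => dist x o) := LipschitzWith.dist_left o
  have h2 : LipschitzWith 1 (fun x : X => (n : ℝ) + 1 - dist x o) := by
    have := (LipschitzWith.const ((n : ℝ) + 1) (α := X)).sub h1
    simpa using this
  have h3 : LipschitzWith 1 (fun x : X => min 1 ((n : ℝ) + 1 - dist x o)) := h2.const_min 1
  exact h3.const_max 0

theorem gca_chi_mem (o : X) (n : ℕ) (x : X) : 0 ≤ gca_chi o n x ∧ gca_chi o n x ≤ 1 := by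
  unfold gca_chi
  exact ⟨le_max_left _ _, max_le zero_le_one (min_le_left _ _)⟩

theorem gca_chi_eq_one {o : X} {n : ℕ} {x : X} (h : dist x o ≤ n) : gca_chi o n x = 1 := by
  unfold gca_chi
  rw [min_eq_left (by linarith), max_eq_right zero_le_one]

theorem gca_chi_eq_zero {o : X} {n : ℕ} {x : X} (h : (n : ℝ) + 1 < dist x o) : gca_chi o n x = 0 := by
  unfold gca_chi
  exact max_eq_left ((min_le_right _ _).trans (by linarith))

theorem gca_clamp_lip (n : ℕ) : LipschitzWith 1 (gca_clamp n) := by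
  have h1 : LipschitzWith 1 (fun z : ℝ => min z (n : ℝ)) := LipschitzWith.id.min_const _
  exact h1.const_max _

theorem gca_clamp_abs_le (n : ℕ) (z : ℝ) : |gca_clamp n z| ≤ n := by
  unfold gca_clamp
  have hn : (0 : ℝ) ≤ n := Nat.cast_nonneg n
  rw [abs_le]
  exact ⟨le_max_left _ _, max_le (by linarith) (min_le_right _ _)⟩

theorem gca_clamp_eq {n : ℕ} {z : ℝ} (h : |z| ≤ n) : gca_clamp n z = z := by
  unfold gca_clamp
  rw [abs_le] at h
  rw [min_eq_left h.2, max_eq_right h.1]

theorem gca_trunc_eq {o : X} {n : ℕ} {x : X} (h : dist x o ≤ n) (hf : |f x| ≤ n) : gca_trunc o n f x = f x := by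
  rw [gca_trunc, gca_chi_eq_one h, gca_clamp_eq hf, one_mul]

theorem gca_trunc_bdd (o : X) (n : ℕ) (f : X → ℝ) : BoundedFunction (gca_trunc o n f) := by
  refine ⟨n, fun x => ?_⟩
  unfold gca_trunc
  rw [abs_mul, abs_of_nonneg (gca_chi_mem o n x).1]
  calc gca_chi o n x * |gca_clamp n (f x)| ≤ 1 * (n : ℝ) :=
        mul_le_mul (gca_chi_mem o n x).2 (gca_clamp_abs_le n _) (abs_nonneg _) zero_le_one
    _ = n := one_mul _

/-- `χ_n` is `LocalSobolev` (`hc.lip 1`) and bounded, `T_n ∘ f` is `LocalSobolev` (`hc.comp 1`) and bounded: the product is `LocalSobolev` (`hc.mul`); it vanishes for `n + 1 < dist x o`: `gca_sob_of_supp`. -/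
theorem gca_trunc_sob (hc : gca_Calc m) (hf : LocalSobolev m f) (o : X) (n : ℕ) : Sobolev m (gca_trunc o n f) := by
  have h1 : LocalSobolev m (gca_chi o n) := (hc.lip 1 _ (gca_chi_lip o n)).1
  have h2 : LocalSobolev m (fun x => gca_clamp n (f x)) := (hc.comp 1 _ f (gca_clamp_lip n) hf).1
  have b1 : BoundedFunction (gca_chi o n) :=
    ⟨1, fun x => by rw [abs_of_nonneg (gca_chi_mem o n x).1]; exact (gca_chi_mem o n x).2⟩
  have b2 : BoundedFunction (fun x => gca_clamp n (f x)) := ⟨n, fun x => gca_clamp_abs_le n _⟩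
  have h3 : LocalSobolev m (gca_trunc o n f) := (hc.mul _ _ h1 h2 b1 b2).1
  refine gca_sob_of_supp hc h3 (o := o) (R := (n : ℝ) + 1) (fun x hx => ?_)
  unfold gca_trunc
  rw [gca_chi_eq_zero hx, zero_mul]

/-- the identity on `A_n`  (header). -/
theorem gca_P_on (hc : gca_Calc m) (hf : LocalSobolev m f) (hg : LocalSobolev m g) (o : X) (n : ℕ) :
    ∀ᵐ x ∂m, dist x o ≤ n → |f x| ≤ n → |g x| ≤ n → gca_P m f g x = 0 := by
  have hfn := gca_trunc_sob hc hf o n
  have hgn := gca_trunc_sob hc hg o n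
  have h0 := gca_P_bdd hc hfn (gca_trunc_bdd o n f) hgn (gca_trunc_bdd o n g)
  have l1 := hc.loc (f + g) (gca_trunc o n f + gca_trunc o n g) (gca_ls_add hc hf hg)
    (gca_ls_add hc hfn.2.1 hgn.2.1)
  have l2 := hc.loc (f - g) (gca_trunc o n f - gca_trunc o n g) (gca_ls_sub hc hf hg)
    (gca_ls_sub hc hfn.2.1 hgn.2.1)
  have l3 := hc.loc f (gca_trunc o n f) hf hfn.2.1
  have l4 := hc.loc g (gca_trunc o n g) hg hgn.2.1
  filter_upwards [h0, l1, l2, l3, l4] with x h0 l1 l2 l3 l4 hx hfx hgx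
  have ef : gca_trunc o n f x = f x := gca_trunc_eq hx hfx
  have eg : gca_trunc o n g x = g x := gca_trunc_eq hx hgx
  have h0' : gca_P m (gca_trunc o n f) (gca_trunc o n g) x = 0 := h0
  rw [gca_P] at h0' ⊢
  rw [l1 (by simp [ef, eg]), l2 (by simp [ef, eg]), l3 ef.symm, l4 eg.symm]
  exact h0'

/-- `ae_all_iff` over `n`, `exists_nat_ge (max (dist x o) (max |f x| |g x|))`;   `X` empty: trivial. -/
theorem gca_P_loc (hc : gca_Calc m) (hf : LocalSobolev m f) (hg : LocalSobolev m g) : gca_P m f g =ᵐ[m] 0 := by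
  rcases isEmpty_or_nonempty X with hX | ⟨⟨o⟩⟩
  · exact Eventually.of_forall fun x => (hX.false x).elim
  · have h := ae_all_iff.2 (fun n : ℕ => gca_P_on hc hf hg o n)
    filter_upwards [h] with x hx
    obtain ⟨n, hn⟩ := exists_nat_ge (max (dist x o) (max |f x| |g x|))
    exact hx n ((le_max_left _ _).trans hn) (((le_max_left _ _).trans (le_max_right _ _)).trans hn)
      (((le_max_right _ _).trans (le_max_right _ _)).trans hn)

end Claimed.Agent.R210.GCA.Local
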