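/-
Row 210 (S0432), layer GCA, file Need: what GCA needs from the other layers (TP: calculus of the frozen weak gradient;  ID + RS: `cheegerEnergy m f = (1/2) ∫ |Df|²` on the frozen Sobolev class).     Architect: helper375.
The six TP items are proved from `TP/Ifc.lean`, the ID item `gca_need_ch` is `gc_ch_eq` of `GC/Bridge.lean` (upstream: ID, helper226, via helper277).   NOBODY else should import this file.
-/
import Claimed.Agent.R210.GCA.Defs
import Claimed.Agent.R210.TP.Ifc
import Claimed.Agent.R210.GC.Bridge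

set_option autoImplicit false
set_option linter.unusedSectionVars false

open Claims.C0366 Claims.C0366.WeakHessian
open Set Filter MeasureTheory
open scoped ENNReal NNReal Topology

namespace Claimed.Agent.R210.GCA.Need

open Claimed.Agent.R210.Defs Claimed.Agent.R210.GCA.Defs Claimed.Agent.R210.TP.Defs Claimed.Agent.R210.TP.Ifc

variable {X : Type*} [MetricSpace X] [MeasurableSpace X] [BorelSpace X] [CompleteSpace X]
  [TopologicalSpace.SeparableSpace X] [ProperSpace X] {m : Measure X} {K N : ℝ}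

/-- TP3 -/
theorem gca_need_add (hS : Std m K N) (f g : X → ℝ) (hf : LocalSobolev m f) (hg : LocalSobolev m g) :
    LocalSobolev m (fun x => f x + g x) ∧
      ∀ᵐ x ∂m, weakGradient m (fun x => f x + g x) x ≤ weakGradient m f x + weakGradient m g x :=
  ⟨tp_localSobolev_add hS.finite hf hg, tp_weakGradient_add_le hf hg⟩

/-- TP3 -/
theorem gca_need_smul (hS : Std m K N) (c : ℝ) (f : X → ℝ) (hf : LocalSobolev m f) :
    LocalSobolev m (fun x => c * f x) ∧
      ∀ᵐ x ∂m, weakGradient m (fun x => c * f x) x = |c| * weakGradient m f x :=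
  ⟨tp_localSobolev_const_mul hS.finite c hf, tp_weakGradient_const_mul m c f⟩

/-- TP3 (locality) -/
theorem gca_need_loc (_hS : Std m K N) (f g : X → ℝ) (hf : LocalSobolev m f) (hg : LocalSobolev m g) :
    ∀ᵐ x ∂m, f x = g x → weakGradient m f x = weakGradient m g x :=
  tp_weakGradient_locality hf hg

/-- TP4 -/
theorem gca_need_lip (hS : Std m K N) (L : ℝ≥0) (φ : X → ℝ) (hφ : LipschitzWith L φ) :
    LocalSobolev m φ ∧ ∀ᵐ x ∂m, weakGradient m φ x ≤ L :=
  ⟨tp_localSobolev_of_lipOnBdd hS.finite (tp_lipOnBdd_of_lipschitz hφ), tp_weakGradient_le_of_lipschitz hS.finite hφ⟩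

/-- TP3 (chain rule, only the inequality for Lipschitz `ψ`) -/
theorem gca_need_comp (hS : Std m K N) (L : ℝ≥0) (ψ : ℝ → ℝ) (f : X → ℝ) (hψ : LipschitzWith L ψ)
    (hf : LocalSobolev m f) :
    LocalSobolev m (fun x => ψ (f x)) ∧
      ∀ᵐ x ∂m, weakGradient m (fun x => ψ (f x)) x ≤ L * weakGradient m f x := by
  refine ⟨tp_localSobolev_comp_lipschitz hS.finite hf hψ, ?_⟩
  filter_upwards [tp_weakGradient_comp_lipschitz hS.finite hf hψ, tp_weakGradient_nonneg m f] with x hx h0
  rw [hx]
  refine mul_le_mul_of_nonneg_right ?_ h0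
  have := norm_deriv_le_of_lipschitz (x₀ := f x) hψ
  simpa using this

theorem gca_need_locBdd (m : Measure X) {f : X → ℝ} (hfb : BoundedFunction f) : tp_LocBdd m f := by
  obtain ⟨B, hB⟩ := hfb
  exact fun _ _ => ⟨B, Eventually.of_forall fun x _ => hB x⟩

/-- TP3 (Leibniz inequality) -/
theorem gca_need_mul (hS : Std m K N) (f g : X → ℝ) (hf : LocalSobolev m f) (hg : LocalSobolev m g)
    (hfb : BoundedFunction f) (hgb : BoundedFunction g) :
    LocalSobolev m (fun x => f x * g x) ∧
      ∀ᵐ x ∂m, weakGradient m (fun x => f x * g x) x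
        ≤ |f x| * weakGradient m g x + |g x| * weakGradient m f x :=
  ⟨tp_localSobolev_mul_of_locBdd hS.finite hf hg (gca_need_locBdd m hfb) (gca_need_locBdd m hgb),
    tp_weakGradient_mul_le_of_locBdd hf hg (gca_need_locBdd m hfb) (gca_need_locBdd m hgb)⟩

/-- ID1 + ID2 + RS2 -/
theorem gca_need_ch (hS : Std m K N) (f : X → ℝ) (hf : Sobolev m f) :
    cheegerEnergy m f = ENNReal.ofReal (energy m f / 2) :=
  Claimed.Agent.R210.GC.Bridge.gc_ch_eq hS hf

end Claimed.Agent.R210.GCA.Need
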