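/-
Row 210 (S0432), layer GCA, file Par: the INTEGRATED parallelogram law for `energy m f = ∫ |Df|²` on the frozen Sobolev class, from the frozen hypothesis `QuadraticCheegerEnergy m` and the identification `cheegerEnergy m f = (1/2) ∫ |Df|²`;  assembly of `gca_Calc m`.     Architect: helper375.
-/
import Claimed.Agent.R210.GCA.Need
import Claimed.Agent.R210.GCA.Sob

set_option autoImplicit false
set_option linter.unusedSectionVars false

open Claims.C0366 Claims.C0366.WeakHessian
open Set Filter MeasureTheory
open scoped ENNReal NNReal Topology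

namespace Claimed.Agent.R210.GCA.Par

open Claimed.Agent.R210.Defs Claimed.Agent.R210.GCA.Defs Claimed.Agent.R210.GCA.Basic Claimed.Agent.R210.GCA.Sob
  Claimed.Agent.R210.GCA.Need

variable {X : Type*} [MetricSpace X] [MeasurableSpace X] [BorelSpace X] [CompleteSpace X]
  [TopologicalSpace.SeparableSpace X] [ProperSpace X] {m : Measure X} {K N : ℝ}

/-- `f + g` is Sobolev  (`gca_need_add`, `gca_sob_of_le`; NOT `gca_sob_add`, which needs `gca_Calc m`). -/
theorem gca_par_sob_add (hS : Std m K N) {f g : X → ℝ} (hf : Sobolev m f) (hg : Sobolev m g) :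
    Sobolev m (fun x => f x + g x) := by
  have h := gca_need_add hS f g hf.2.1 hg.2.1
  exact gca_sob_of_le (hf.1.add hg.1) h.1 (hf.2.2.add hg.2.2) h.2

/-- `f - g = f + (-1) * g`  (`gca_need_smul hS (-1) g`, `gca_need_add`, `gca_sob_of_le`;  rewrite `fun x => f x - g x = fun x => f x + -1 * g x` by `funext`, `ring`). -/
theorem gca_par_sob_sub (hS : Std m K N) {f g : X → ℝ} (hf : Sobolev m f) (hg : Sobolev m g) :
    Sobolev m (fun x => f x - g x) := by
  have hs := gca_need_smul hS (-1) g hg.2.1
  have h := gca_need_add hS f (fun x => -1 * g x) hf.2.1 hs.1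
  have e : (fun x => f x - g x) = fun x => f x + -1 * g x := by
    funext x
    ring
  rw [e]
  refine gca_sob_of_le (hf.1.add (hg.1.const_mul (-1))) h.1 (hf.2.2.add hg.2.2) ?_
  filter_upwards [h.2, hs.2] with x h1 h2
  rw [h2] at h1
  simpa using h1

/-- `hS.quad f g` (finiteness: `gca_need_ch`, `ENNReal.ofReal_lt_top`), `gca_need_ch` for `f + g`, `f - g`, `f`, `g`; then `ENNReal.ofReal` of nonnegative reals:  `ofReal (a/2) + ofReal (b/2) = 2 * ofReal (c/2) + 2 * ofReal (d/2)`  ⟹  `a + b = 2 c + 2 d`
(`ENNReal.ofReal_add`, `ENNReal.ofReal_mul`, `ENNReal.ofReal_eq_ofReal_iff`;  `gca_energy_nonneg`). -/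
theorem gca_par_energy (hS : Std m K N) (f g : X → ℝ) (hf : Sobolev m f) (hg : Sobolev m g) :
    energy m (fun x => f x + g x) + energy m (fun x => f x - g x) = 2 * energy m f + 2 * energy m g := by
  have hfg := gca_par_sob_add hS hf hg
  have hfg' := gca_par_sob_sub hS hf hg
  have c1 := gca_need_ch hS f hf
  have c2 := gca_need_ch hS g hg
  have c3 := gca_need_ch hS _ hfg
  have c4 := gca_need_ch hS _ hfg'
  have hq := hS.quad f g (by rw [c1]; exact ENNReal.ofReal_lt_top)
    (by rw [c2]; exact ENNReal.ofReal_lt_top)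
  rw [c1, c2, c3, c4] at hq
  have n1 := gca_energy_nonneg m f
  have n2 := gca_energy_nonneg m g
  have n3 := gca_energy_nonneg m (fun x => f x + g x)
  have n4 := gca_energy_nonneg m (fun x => f x - g x)
  have e2 : (2 : ℝ≥0∞) = ENNReal.ofReal 2 := by simp
  rw [e2, ← ENNReal.ofReal_mul (by norm_num), ← ENNReal.ofReal_mul (by norm_num),
    ← ENNReal.ofReal_add (by positivity) (by positivity),
    ← ENNReal.ofReal_add (by positivity) (by positivity),
    ENNReal.ofReal_eq_ofReal_iff (by positivity) (by positivity)] at hq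
  linarith

/-- the calculus rules hold under the standing assumptions -/
theorem gca_calc (hS : Std m K N) : gca_Calc m where
  finite := hS.finite
  add := gca_need_add hS
  smul := gca_need_smul hS
  loc := gca_need_loc hS
  lip := gca_need_lip hS
  comp := gca_need_comp hS
  mul := gca_need_mul hS
  par := gca_par_energy hS

end Claimed.Agent.R210.GCA.Par
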