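/-
Row 210 (S0432), layer GCA: INTERFACE.     Architect: helper375.      Blueprint: `git show origin/helper375:docs/R210_GCA.md`.

EXPORT (contract GC-A):   `gca_parallelogram`:   for `LocalSobolev` `f, g`:   `|D(f+g)|² + |D(f-g)|² = 2 |Df|² + 2 |Dg|²`   a.e.
By-products which consumers may use (all for `hc : gca_Calc m`, obtained from `gca_calc hS`):
 * `GCA/Basic.lean`, `GCA/Sob.lean`: rules for `weakGradient`, `LocalSobolev`, `Sobolev` with the pointwise operations of `X → ℝ`;
 * `GCA/Form.lean`: `gca_E m u v = (energy (u+v) - energy (u-v))/4` is symmetric and bilinear on Sobolev functions, `gca_energy_add_smul`;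
 * `GCA/Var.lean`: `|E(u,v)| ≤ ∫ |Du||Dv|`;      `GCA/Ident.lean`: `∫ φ |Df|² = E(f,fφ) - E(f²,φ)/2`.
-/
import Claimed.Agent.R210.GCA.Par
import Claimed.Agent.R210.GCA.Local

set_option autoImplicit false
set_option linter.unusedSectionVars false

open Claims.C0366 Claims.C0366.WeakHessian
open Set Filter MeasureTheory
open scoped ENNReal NNReal Topology

namespace Claimed.Agent.R210.GCA.Ifc

open Claimed.Agent.R210.Defs Claimed.Agent.R210.GCA.Defs

variable {X : Type*} [MetricSpace X] [MeasurableSpace X] [BorelSpace X]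

/-- the identity from the calculus rules alone -/
theorem gca_parallelogram_of_calc {m : Measure X} (hc : gca_Calc m) {f g : X → ℝ} (hf : LocalSobolev m f)
    (hg : LocalSobolev m g) :
    ∀ᵐ x ∂m, weakGradient m (fun y => f y + g y) x ^ 2 + weakGradient m (fun y => f y - g y) x ^ 2
      = 2 * weakGradient m f x ^ 2 + 2 * weakGradient m g x ^ 2 := by
  filter_upwards [Local.gca_P_loc hc hf hg] with x hx
  have h : weakGradient m (f + g) x ^ 2 + weakGradient m (f - g) x ^ 2
      - 2 * weakGradient m f x ^ 2 - 2 * weakGradient m g x ^ 2 = 0 := hx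
  have h' : weakGradient m (fun y => f y + g y) x ^ 2 + weakGradient m (fun y => f y - g y) x ^ 2
      - 2 * weakGradient m f x ^ 2 - 2 * weakGradient m g x ^ 2 = 0 := h
  linarith

variable [CompleteSpace X] [TopologicalSpace.SeparableSpace X] [ProperSpace X] {m : Measure X} {K N : ℝ}

/-- the calculus rules hold under the standing assumptions -/
theorem gca_calc (hS : Std m K N) : gca_Calc m := Par.gca_calc hS

/-- **GC-A: pointwise parallelogram identity.** -/
theorem gca_parallelogram (hS : Std m K N) {f g : X → ℝ} (hf : LocalSobolev m f) (hg : LocalSobolev m g) :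
    ∀ᵐ x ∂m, weakGradient m (fun y => f y + g y) x ^ 2 + weakGradient m (fun y => f y - g y) x ^ 2
      = 2 * weakGradient m f x ^ 2 + 2 * weakGradient m g x ^ 2 :=
  gca_parallelogram_of_calc (gca_calc hS) hf hg

end Claimed.Agent.R210.GCA.Ifc
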